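import Mathlib
import Vale.Agent.P260.H145.PDZDef
import Vale.Agent.P260.H493.Spec

/-!
# P260 climb: rational Poincare duality data from integral data
-/

namespace Vale.Agent.P260.H81

open Matrix
open Vale.Agent.P260.H145 (PD4Z augZ)
open Vale.Agent.P260.H493

section inc

variable {G : Type} [Group G]

/-- The inclusion `ℤ[G] → ℚ[G]`. -/
noncomputable def inc : MonoidAlgebra ℤ G →+* MonoidAlgebra ℚ G :=
  MonoidAlgebra.mapRingHom G (Int.castRingHom ℚ)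

theorem coeff_inc (x : MonoidAlgebra ℤ G) (g : G) : (inc x).coeff g = (x.coeff g : ℚ) := by
  rw [inc, MonoidAlgebra.coeff_mapRingHom]; rfl

theorem inc_single (g : G) (n : ℤ) :
    inc (MonoidAlgebra.single g n) = MonoidAlgebra.single g (n : ℚ) := by
  rw [inc, MonoidAlgebra.mapRingHom_single]; rfl

theorem inc_inj : Function.Injective (inc (G := G)) := by
  intro x y h
  refine MonoidAlgebra.ext ?_
  refine Finsupp.ext fun g => ?_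
  have h1 : (inc x).coeff g = (inc y).coeff g := by rw [h]
  rw [coeff_inc, coeff_inc] at h1
  exact_mod_cast h1

theorem inc_smul (n : ℤ) (x : MonoidAlgebra ℤ G) : inc (n • x) = (n : ℚ) • inc x := by
  refine MonoidAlgebra.ext ?_
  refine Finsupp.ext fun g => ?_
  rw [coeff_inc, MonoidAlgebra.coeff_smul, Finsupp.smul_apply, MonoidAlgebra.coeff_smul,
    Finsupp.smul_apply, coeff_inc, smul_eq_mul, smul_eq_mul, Int.cast_mul]

theorem clear1 (x : MonoidAlgebra ℚ G) : ∃ N : ℤ, N ≠ 0 ∧ ∃ y, (N : ℚ) • x = inc y := by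
  induction x using MonoidAlgebra.induction_linear with
  | zero => exact ⟨1, one_ne_zero, 0, by simp⟩
  | add x y hx hy =>
    obtain ⟨N, hN, x', hx'⟩ := hx
    obtain ⟨M, hM, y', hy'⟩ := hy
    refine ⟨N * M, mul_ne_zero hN hM, M • x' + N • y', ?_⟩
    rw [map_add, inc_smul, inc_smul, ← hx', ← hy', smul_smul, smul_smul, smul_add, Int.cast_mul,
      mul_comm (M : ℚ)]
  | single g r =>
    refine ⟨r.den, by exact_mod_cast r.den_ne_zero, MonoidAlgebra.single g r.num, ?_⟩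
    rw [inc_single, MonoidAlgebra.smul_single]
    congr 1
    rw [smul_eq_mul, Int.cast_natCast, mul_comm]
    exact Rat.mul_den_eq_num r

/-- The inclusion of vectors. -/
noncomputable def iv {n : ℕ} (v : Fin n → MonoidAlgebra ℤ G) : Fin n → MonoidAlgebra ℚ G :=
  fun i => inc (v i)

theorem iv_inj {n : ℕ} {v w : Fin n → MonoidAlgebra ℤ G} (h : iv v = iv w) : v = w :=
  funext fun i => inc_inj (congrFun h i)

theorem iv_zero {n : ℕ} : iv (0 : Fin n → MonoidAlgebra ℤ G) = 0 := by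
  funext i; exact map_zero _

theorem iv_add {n : ℕ} (v w : Fin n → MonoidAlgebra ℤ G) : iv (v + w) = iv v + iv w := by
  funext i; exact map_add _ _ _

theorem iv_sub {n : ℕ} (v w : Fin n → MonoidAlgebra ℤ G) : iv (v - w) = iv v - iv w := by
  funext i; exact map_sub _ _ _

theorem iv_smul {n : ℕ} (N : ℤ) (v : Fin n → MonoidAlgebra ℤ G) :
    iv (N • v) = (N : ℚ) • iv v := by
  funext i; exact inc_smul _ _

theorem clear {n : ℕ} (v : Fin n → MonoidAlgebra ℚ G) :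
    ∃ N : ℤ, N ≠ 0 ∧ ∃ w, v = ((N : ℚ)⁻¹) • iv w := by
  choose N hN y hy using fun i => clear1 (v i)
  refine ⟨∏ i, N i, Finset.prod_ne_zero_iff.2 fun i _ => hN i,
    fun i => (∏ j ∈ Finset.univ.erase i, N j) • y i, ?_⟩
  have h0 : ((∏ i, N i : ℤ) : ℚ) ≠ 0 := by
    exact_mod_cast Finset.prod_ne_zero_iff.2 fun i _ => hN i
  rw [eq_inv_smul_iff₀ h0]
  funext i
  show ((∏ i, N i : ℤ) : ℚ) • v i = inc ((∏ j ∈ Finset.univ.erase i, N j) • y i)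
  rw [inc_smul, ← hy i, smul_smul, ← Int.cast_mul, Finset.prod_erase_mul _ _ (Finset.mem_univ i)]

theorem iv_vecMul {m n : ℕ} (v : Fin m → MonoidAlgebra ℤ G)
    (M : Matrix (Fin m) (Fin n) (MonoidAlgebra ℤ G)) :
    iv (v ᵥ* M) = iv v ᵥ* M.map inc := by
  funext i
  exact RingHom.map_vecMul _ _ _ _

theorem iv_mulVec {m n : ℕ} (v : Fin n → MonoidAlgebra ℤ G)
    (M : Matrix (Fin m) (Fin n) (MonoidAlgebra ℤ G)) :
    iv (M *ᵥ v) = M.map inc *ᵥ iv v := by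
  funext i
  exact RingHom.map_mulVec _ _ _ _

theorem smul_vecMulQ {m n : ℕ} (c : ℚ) (v : Fin m → MonoidAlgebra ℚ G)
    (M : Matrix (Fin m) (Fin n) (MonoidAlgebra ℚ G)) : (c • v) ᵥ* M = c • (v ᵥ* M) :=
  Matrix.smul_vecMul c v M

theorem mulVec_smulQ {m n : ℕ} (c : ℚ) (v : Fin n → MonoidAlgebra ℚ G)
    (M : Matrix (Fin m) (Fin n) (MonoidAlgebra ℚ G)) : M *ᵥ (c • v) = c • (M *ᵥ v) :=
  Matrix.mulVec_smul M c v

theorem inv_ne {N : ℤ} (hN : N ≠ 0) : ((N : ℚ)⁻¹) ≠ 0 := inv_ne_zero (by exact_mod_cast hN)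

/-- exactness of rows over `ℚ` -/
theorem row_q {a b c : ℕ} (A : Matrix (Fin a) (Fin b) (MonoidAlgebra ℤ G))
    (B : Matrix (Fin b) (Fin c) (MonoidAlgebra ℤ G))
    (h : ∀ v, v ᵥ* B = 0 ↔ ∃ w, w ᵥ* A = v) (v : Fin b → MonoidAlgebra ℚ G) :
    v ᵥ* B.map inc = 0 ↔ ∃ w, w ᵥ* A.map inc = v := by
  constructor
  · intro hv
    obtain ⟨N, hN, v, rfl⟩ := clear v
    rw [smul_vecMulQ, ← iv_vecMul] at hv
    have h1 : iv (v ᵥ* B) = iv 0 := by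
      rw [iv_zero]; exact (smul_eq_zero.1 hv).resolve_left (inv_ne hN)
    obtain ⟨w, hw⟩ := (h v).1 (iv_inj h1)
    exact ⟨((N : ℚ)⁻¹) • iv w, by rw [smul_vecMulQ, ← iv_vecMul, hw]⟩
  · rintro ⟨w, rfl⟩
    obtain ⟨N, hN, w, rfl⟩ := clear w
    rw [smul_vecMulQ, ← iv_vecMul, smul_vecMulQ, ← iv_vecMul, (h _).2 ⟨w, rfl⟩, iv_zero, smul_zero]

theorem row_q_inj {b c : ℕ} (B : Matrix (Fin b) (Fin c) (MonoidAlgebra ℤ G))
    (h : ∀ v, v ᵥ* B = 0 → v = 0) (v : Fin b → MonoidAlgebra ℚ G) (hv : v ᵥ* B.map inc = 0) :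
    v = 0 := by
  obtain ⟨N, hN, v, rfl⟩ := clear v
  rw [smul_vecMulQ, ← iv_vecMul] at hv
  have h1 : iv (v ᵥ* B) = iv 0 := by
    rw [iv_zero]; exact (smul_eq_zero.1 hv).resolve_left (inv_ne hN)
  rw [h v (iv_inj h1), iv_zero, smul_zero]

theorem col_q {a b c : ℕ} (A : Matrix (Fin b) (Fin a) (MonoidAlgebra ℤ G))
    (B : Matrix (Fin c) (Fin b) (MonoidAlgebra ℤ G))
    (h : ∀ v, B *ᵥ v = 0 → ∃ w, A *ᵥ w = v) (v : Fin b → MonoidAlgebra ℚ G)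
    (hv : B.map inc *ᵥ v = 0) : ∃ w, A.map inc *ᵥ w = v := by
  obtain ⟨N, hN, v, rfl⟩ := clear v
  rw [mulVec_smulQ, ← iv_mulVec] at hv
  have h1 : iv (B *ᵥ v) = iv 0 := by
    rw [iv_zero]; exact (smul_eq_zero.1 hv).resolve_left (inv_ne hN)
  obtain ⟨w, hw⟩ := h v (iv_inj h1)
  exact ⟨((N : ℚ)⁻¹) • iv w, by rw [mulVec_smulQ, ← iv_mulVec, hw]⟩

theorem col_q_inj {b c : ℕ} (B : Matrix (Fin c) (Fin b) (MonoidAlgebra ℤ G))
    (h : ∀ v, B *ᵥ v = 0 → v = 0) (v : Fin b → MonoidAlgebra ℚ G) (hv : B.map inc *ᵥ v = 0) :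
    v = 0 := by
  obtain ⟨N, hN, v, rfl⟩ := clear v
  rw [mulVec_smulQ, ← iv_mulVec] at hv
  have h1 : iv (B *ᵥ v) = iv 0 := by
    rw [iv_zero]; exact (smul_eq_zero.1 hv).resolve_left (inv_ne hN)
  rw [h v (iv_inj h1), iv_zero, smul_zero]

/-- the functional given by a column -/
noncomputable def fn {n : ℕ} (w : Fin n → MonoidAlgebra ℚ G) :
    (Fin n → MonoidAlgebra ℚ G) →ₗ[MonoidAlgebra ℚ G] MonoidAlgebra ℚ G where
  toFun v := v ⬝ᵥ w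
  map_add' _ _ := add_dotProduct _ _ _
  map_smul' _ _ := smul_dotProduct _ _ _

theorem fn_apply {n : ℕ} (w v : Fin n → MonoidAlgebra ℚ G) : fn w v = v ⬝ᵥ w := rfl

theorem exists_fn {n : ℕ}
    (φ : (Fin n → MonoidAlgebra ℚ G) →ₗ[MonoidAlgebra ℚ G] MonoidAlgebra ℚ G) :
    ∃ w, φ = fn w := by
  refine ⟨fun j => φ (Pi.single j 1), ?_⟩
  apply LinearMap.pi_ext'
  intro j
  ext
  simp [fn_apply]

theorem fn_comp {m n : ℕ} (M : Matrix (Fin m) (Fin n) (MonoidAlgebra ℚ G))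
    (w : Fin n → MonoidAlgebra ℚ G) : fn w ∘ₗ Matrix.vecMulLinear M = fn (M *ᵥ w) := by
  refine LinearMap.ext fun v => ?_
  show (v ᵥ* M) ⬝ᵥ w = v ⬝ᵥ (M *ᵥ w)
  rw [dotProduct_mulVec]

theorem fn_inj {n : ℕ} {w w' : Fin n → MonoidAlgebra ℚ G} (h : fn w = fn w') : w = w' := by
  funext j
  have := LinearMap.congr_fun h (Pi.single j 1)
  simpa [fn_apply] using this

theorem fn_zero {n : ℕ} : fn (0 : Fin n → MonoidAlgebra ℚ G) = 0 := by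
  refine LinearMap.ext fun v => ?_
  show v ⬝ᵥ 0 = 0
  exact dotProduct_zero v

/-- the augmentation over `ℚ` -/
noncomputable abbrev augQ (G : Type) [Group G] : MonoidAlgebra ℚ G →ₐ[ℚ] ℚ :=
  MonoidAlgebra.lift ℚ ℚ G 1

theorem aug_inc (x : MonoidAlgebra ℤ G) : augQ G (inc x) = ((augZ G x : ℤ) : ℚ) := by
  induction x using MonoidAlgebra.induction_on with
  | of g =>
    rw [inc, MonoidAlgebra.of_apply, MonoidAlgebra.mapRingHom_single]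
    simp
  | add x y hx hy => rw [map_add, map_add, map_add, hx, hy, Int.cast_add]
  | smul c x hx =>
    rw [map_zsmul, map_zsmul, map_zsmul, hx, zsmul_eq_mul, smul_eq_mul, Int.cast_mul]

/-- the augmentation of vectors -/
noncomputable def epsQ {n : ℕ} (c : Fin n → ℤ) : (Fin n → MonoidAlgebra ℚ G) →ₗ[ℚ] ℚ :=
  ∑ i, (c i : ℚ) • ((augQ G).toLinearMap ∘ₗ LinearMap.proj i)

theorem epsQ_apply {n : ℕ} (c : Fin n → ℤ) (v : Fin n → MonoidAlgebra ℚ G) :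
    epsQ c v = ∑ i, (c i : ℚ) * augQ G (v i) := by
  simp [epsQ]

theorem epsQ_iv {n : ℕ} (c : Fin n → ℤ) (v : Fin n → MonoidAlgebra ℤ G) :
    epsQ c (iv v) = ((∑ i, augZ G (v i) * c i : ℤ) : ℚ) := by
  rw [epsQ_apply, Int.cast_sum]
  refine Finset.sum_congr rfl fun i _ => ?_
  rw [Int.cast_mul, mul_comm]
  congr 1
  exact aug_inc _

end inc

section PD

variable {G : Type} [Group G] (P : PD4Z G)

/-- the ranks -/
def rr : ℕ → ℕ
  | 0 => P.n₀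
  | 1 => P.n₁
  | 2 => P.n₂
  | 3 => P.n₃
  | 4 => P.n₄
  | _ + 5 => 0

/-- the differentials -/
noncomputable def dd : ∀ i, (Fin (rr P (i + 1)) → MonoidAlgebra ℚ G) →ₗ[MonoidAlgebra ℚ G]
    (Fin (rr P i) → MonoidAlgebra ℚ G)
  | 0 => Matrix.vecMulLinear (P.d₁.map inc)
  | 1 => Matrix.vecMulLinear (P.d₂.map inc)
  | 2 => Matrix.vecMulLinear (P.d₃.map inc)
  | 3 => Matrix.vecMulLinear (P.d₄.map inc)
  | _ + 4 => 0

theorem ex0Q (v : Fin P.n₀ → MonoidAlgebra ℚ G) :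
    epsQ P.c v = 0 ↔ ∃ w, w ᵥ* P.d₁.map inc = v := by
  constructor
  · intro hv
    obtain ⟨N, hN, v, rfl⟩ := clear v
    rw [map_smul, epsQ_iv] at hv
    have h1 := (smul_eq_zero.1 hv).resolve_left (inv_ne hN)
    obtain ⟨w, hw⟩ := (P.ex₀ v).1 (by exact_mod_cast h1)
    exact ⟨((N : ℚ)⁻¹) • iv w, by rw [smul_vecMulQ, ← iv_vecMul, hw]⟩
  · rintro ⟨w, rfl⟩
    obtain ⟨N, hN, w, rfl⟩ := clear w
    rw [smul_vecMulQ, ← iv_vecMul, map_smul, epsQ_iv, (P.ex₀ _).2 ⟨w, rfl⟩, Int.cast_zero,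
      smul_zero]

/-- exactness of the functionals from exactness of columns -/
theorem fn_ex {a b c : ℕ} (A : Matrix (Fin b) (Fin a) (MonoidAlgebra ℤ G))
    (B : Matrix (Fin c) (Fin b) (MonoidAlgebra ℤ G))
    (h : ∀ v, B *ᵥ v = 0 → ∃ w, A *ᵥ w = v)
    (φ : (Fin b → MonoidAlgebra ℚ G) →ₗ[MonoidAlgebra ℚ G] MonoidAlgebra ℚ G)
    (hφ : φ ∘ₗ Matrix.vecMulLinear (B.map inc) = 0) :
    ∃ χ : (Fin a → MonoidAlgebra ℚ G) →ₗ[MonoidAlgebra ℚ G] MonoidAlgebra ℚ G,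
      φ = χ ∘ₗ Matrix.vecMulLinear (A.map inc) := by
  obtain ⟨w, rfl⟩ := exists_fn φ
  rw [fn_comp, ← fn_zero] at hφ
  obtain ⟨u, hu⟩ := col_q A B h w (fn_inj hφ)
  exact ⟨fn u, by rw [fn_comp, hu]⟩

theorem eps_smulQ {n : ℕ} (c : Fin n → ℤ) (g : G) (v : Fin n → MonoidAlgebra ℚ G) :
    epsQ c (MonoidAlgebra.single g (1 : ℚ) • v) = epsQ c v := by
  rw [epsQ_apply, epsQ_apply]
  refine Finset.sum_congr rfl fun i _ => ?_
  rw [Pi.smul_apply, smul_eq_mul, map_mul]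
  congr 1
  simp

theorem eps_surjQ : Function.Surjective (epsQ (G := G) P.c) := by
  intro q
  obtain ⟨v, hv⟩ := P.onto
  refine ⟨q • iv v, ?_⟩
  rw [map_smul, epsQ_iv, hv, Int.cast_one, smul_eq_mul, mul_one]

theorem co0Q (φ : (Fin P.n₀ → MonoidAlgebra ℚ G) →ₗ[MonoidAlgebra ℚ G] MonoidAlgebra ℚ G)
    (hφ : φ ∘ₗ Matrix.vecMulLinear (P.d₁.map inc) = 0) : φ = 0 := by
  obtain ⟨w, rfl⟩ := exists_fn φ
  have h1 : fn ((P.d₁.map inc) *ᵥ w) = fn 0 := by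
    rw [← fn_comp, fn_zero]; exact hφ
  rw [col_q_inj _ P.co₀ w (fn_inj h1)]
  exact fn_zero

theorem topQ : ∃ φ₀ : (Fin P.n₄ → MonoidAlgebra ℚ G) →ₗ[MonoidAlgebra ℚ G] MonoidAlgebra ℚ G,
    φ₀ ∘ₗ LinearMap.id = φ₀ ∧
    (¬ ∃ χ : (Fin P.n₃ → MonoidAlgebra ℚ G) →ₗ[MonoidAlgebra ℚ G] MonoidAlgebra ℚ G,
      φ₀ = χ ∘ₗ Matrix.vecMulLinear (P.d₄.map inc)) ∧
    ∀ φ : (Fin P.n₄ → MonoidAlgebra ℚ G) →ₗ[MonoidAlgebra ℚ G] MonoidAlgebra ℚ G,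
      φ ∘ₗ LinearMap.id = φ → ∃ (c : ℚ)
        (χ : (Fin P.n₃ → MonoidAlgebra ℚ G) →ₗ[MonoidAlgebra ℚ G] MonoidAlgebra ℚ G),
        ∀ v, φ v = c • φ₀ v + χ (Matrix.vecMulLinear (P.d₄.map inc) v) := by
  obtain ⟨θ, hθs, hθ⟩ := P.co₄
  obtain ⟨e, he⟩ := hθs 1
  refine ⟨fn (iv e), rfl, ?_, ?_⟩
  · rintro ⟨χ, hχ⟩
    obtain ⟨x, rfl⟩ := exists_fn χ
    rw [fn_comp] at hχ
    have h2 := fn_inj hχ
    obtain ⟨N, hN, x, rfl⟩ := clear x
    rw [mulVec_smulQ, ← iv_mulVec] at h2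
    have h3 : iv (N • e) = iv (P.d₄ *ᵥ x) := by
      rw [iv_smul, h2, smul_smul, mul_inv_cancel₀ (by exact_mod_cast hN), one_smul]
    have h4 := (hθ _).2 ⟨x, (iv_inj h3).symm⟩
    rw [map_zsmul, he, smul_eq_mul, mul_one] at h4
    exact hN h4
  · intro φ _
    obtain ⟨w, rfl⟩ := exists_fn φ
    obtain ⟨N, hN, w, rfl⟩ := clear w
    have h1 : θ (w - θ w • e) = 0 := by
      rw [map_sub, map_zsmul, he, smul_eq_mul, mul_one, sub_self]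
    obtain ⟨u, hu⟩ := (hθ _).1 h1
    refine ⟨(N : ℚ)⁻¹ * (θ w : ℚ), fn (((N : ℚ)⁻¹) • iv u), fun v => ?_⟩
    have h2 : ((N : ℚ)⁻¹) • iv w = ((N : ℚ)⁻¹ * (θ w : ℚ)) • iv e +
        (P.d₄.map inc) *ᵥ (((N : ℚ)⁻¹) • iv u) := by
      rw [mulVec_smulQ, ← iv_mulVec, hu, iv_sub, iv_smul, smul_sub, smul_smul,
        add_sub_cancel]
    have h3 : fn (((N : ℚ)⁻¹) • iv u) (Matrix.vecMulLinear (P.d₄.map inc) v) =
        fn ((P.d₄.map inc) *ᵥ (((N : ℚ)⁻¹) • iv u)) v := by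
      rw [← fn_comp]; rfl
    rw [h3, h2]
    show v ⬝ᵥ _ = _ • (v ⬝ᵥ _) + v ⬝ᵥ _
    rw [dotProduct_add, dotProduct_smul]

/-- **M1** -/
noncomputable def pdg : PDG ℚ G 3 where
  r := rr P
  d := dd P
  π := LinearMap.id
  ε := epsQ P.c
  eps_smul g v := eps_smulQ P.c g v
  eps_surj := eps_surjQ P
  ex0 := ex0Q P
  ex := by
    intro i hi
    match i, hi with
    | 0, _ => exact row_q _ _ P.ex₁
    | 1, _ => exact row_q _ _ P.ex₂
    | 2, _ => exact row_q _ _ P.ex₃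
    | i + 3, hi => omega
  pi_pi _ := rfl
  d_pi _ := rfl
  ex_top := row_q_inj _ P.ex₄
  co0 := co0Q P
  co := by
    intro i hi
    match i, hi with
    | 0, _ => exact fn_ex _ _ P.co₁
    | 1, _ => exact fn_ex _ _ P.co₂
    | 2, _ => exact fn_ex _ _ P.co₃
    | i + 3, hi => omega
  co_top := topQ P

end PD

theorem stmtPDZ : StmtPDZ := fun _ _ P => ⟨pdg P⟩

end Vale.Agent.P260.H81
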