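import Mathlib
import Vale.Agent.P260.H802.TrC

/-!
# P260 W5: the trace of the top projective and the Euler characteristic (amenable groups)
-/

namespace Vale.Agent.P260.H81

open Module MonoidAlgebra
open scoped Matrix
open Vale.Agent.P260.H493 (PDG map_k_smul expand coeff_single_mul')
open Vale.Agent.P260.H802

section win

variable {Γ : Type} [Group Γ]

open Classical in
/-- the outer neighbourhood -/
noncomputable def outw (B E : Finset Γ) : Finset Γ := E ∪ (E ×ˢ B).image fun p => p.1 * p.2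

/-- the inner part -/
noncomputable def innw (B E : Finset Γ) : Finset Γ :=
  @Finset.filter Γ (fun x => ∀ s ∈ B, x * s ∈ E) (Classical.decPred _) E

theorem sub_outw (B E : Finset Γ) : E ⊆ outw B E := by
  classical
  exact Finset.subset_union_left

theorem mem_innw_iff {B E : Finset Γ} {x : Γ} : x ∈ innw B E ↔ x ∈ E ∧ ∀ s ∈ B, x * s ∈ E :=
  @Finset.mem_filter Γ (fun x => ∀ s ∈ B, x * s ∈ E) (Classical.decPred _) E x

theorem innw_sub (B E : Finset Γ) : innw B E ⊆ E := fun _ hx => (mem_innw_iff.1 hx).1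

theorem mem_outw {B E : Finset Γ} {x s : Γ} (hx : x ∈ E) (hs : s ∈ B) : x * s ∈ outw B E := by
  classical
  exact Finset.mem_union_right _ (Finset.mem_image.2 ⟨(x, s), Finset.mem_product.2 ⟨hx, hs⟩, rfl⟩)

theorem mem_innw {B E : Finset Γ} {x s : Γ} (hx : x ∈ innw B E) (hs : s ∈ B) : x * s ∈ E := by
  exact (mem_innw_iff.1 hx).2 s hs

/-- large windows with small boundary -/
theorem exists_window (hF : Folner Γ) (hI : Infinite Γ) (B : Finset Γ) (δ : ℝ) (hδ : 0 < δ) :
    ∃ E : Finset Γ, E.Nonempty ∧ (E.card : ℝ) - (innw B E).card ≤ δ * E.card ∧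
      ((outw B E).card : ℝ) - E.card ≤ δ * E.card ∧ 1 ≤ δ * E.card := by
  classical
  obtain ⟨n, hn⟩ := exists_nat_ge (1 / δ)
  obtain ⟨N, hN⟩ := Infinite.exists_subset_card_eq Γ n
  set ε : ℝ := δ / (B.card + 1) with hε
  have hε0 : 0 < ε := by positivity
  have hεδ : ε ≤ δ := by
    rw [hε, div_le_iff₀ (by positivity)]
    nlinarith [(Nat.cast_nonneg B.card : (0 : ℝ) ≤ B.card)]
  have hεB : B.card * ε ≤ δ := by
    rw [hε, mul_div_assoc', div_le_iff₀ (by positivity)]
    nlinarith
  obtain ⟨E, hE, hE2⟩ := right_folner hF (B ∪ N) ε hε0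
  have hEpos : (0 : ℝ) < E.card := by exact_mod_cast hE.card_pos
  have hb1 : ∀ s ∈ B ∪ N, ((E.filter fun x => x * s ∉ E).card : ℝ) ≤ ε * E.card := by
    intro s hs
    refine le_trans (le_of_eq ?_) (hE2 s hs)
    rw [← Set.ncard_coe_finset]
    congr 2
    ext x; simp
  have hb2 : ∀ s ∈ B, ((E.filter fun x => x * s ∉ E).card : ℝ) ≤ ε * E.card := fun s hs =>
    hb1 s (Finset.mem_union_left _ hs)
  refine ⟨E, hE, ?_, ?_, ?_⟩
  · have h1 : E ⊆ innw B E ∪ B.biUnion fun s => E.filter fun x => x * s ∉ E := by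
      intro x hx
      by_cases h : ∀ s ∈ B, x * s ∈ E
      · exact Finset.mem_union_left _ (mem_innw_iff.2 ⟨hx, h⟩)
      · push Not at h
        obtain ⟨s, hs, hs2⟩ := h
        exact Finset.mem_union_right _ (Finset.mem_biUnion.2 ⟨s, hs, Finset.mem_filter.2 ⟨hx, hs2⟩⟩)
    have h2 := (Finset.card_le_card h1).trans (Finset.card_union_le _ _)
    have h3 : ((B.biUnion fun s => E.filter fun x => x * s ∉ E).card : ℝ) ≤
        B.card * (ε * E.card) := by
      have h4 : ((B.biUnion fun s => E.filter fun x => x * s ∉ E).card : ℝ) ≤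
          ∑ s ∈ B, ((E.filter fun x => x * s ∉ E).card : ℝ) := by
        exact_mod_cast Finset.card_biUnion_le
      refine h4.trans ((Finset.sum_le_sum hb2).trans ?_)
      rw [Finset.sum_const, nsmul_eq_mul]
    have h5 : (E.card : ℝ) ≤
        (innw B E).card + ((B.biUnion fun s => E.filter fun x => x * s ∉ E).card : ℝ) := by
      exact_mod_cast h2
    nlinarith
  · have h1 : outw B E ⊆
        E ∪ B.biUnion fun s => (E.filter fun x => x * s ∉ E).image fun x => x * s := by
      intro y hy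
      rcases Finset.mem_union.1 hy with hy | hy
      · exact Finset.mem_union_left _ hy
      · obtain ⟨⟨x, s⟩, hxs, rfl⟩ := Finset.mem_image.1 hy
        rw [Finset.mem_product] at hxs
        by_cases h : x * s ∈ E
        · exact Finset.mem_union_left _ h
        · exact Finset.mem_union_right _ (Finset.mem_biUnion.2 ⟨s, hxs.2,
            Finset.mem_image.2 ⟨x, Finset.mem_filter.2 ⟨hxs.1, h⟩, rfl⟩⟩)
    have h2 := (Finset.card_le_card h1).trans (Finset.card_union_le _ _)
    have h3 : ((B.biUnion fun s => (E.filter fun x => x * s ∉ E).image fun x => x * s).card : ℝ) ≤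
        B.card * (ε * E.card) := by
      have h4 : ((B.biUnion fun s => (E.filter fun x => x * s ∉ E).image fun x => x * s).card : ℝ) ≤
          ∑ s ∈ B, ((E.filter fun x => x * s ∉ E).card : ℝ) := by
        have h5 := Finset.card_biUnion_le (s := B)
          (t := fun s => (E.filter fun x => x * s ∉ E).image fun x => x * s)
        have h6 : ∑ s ∈ B, ((E.filter fun x => x * s ∉ E).image fun x => x * s).card ≤
            ∑ s ∈ B, (E.filter fun x => x * s ∉ E).card :=
          Finset.sum_le_sum fun s _ => Finset.card_image_le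
        exact_mod_cast h5.trans h6
      refine h4.trans ((Finset.sum_le_sum hb2).trans ?_)
      rw [Finset.sum_const, nsmul_eq_mul]
    have h5 : ((outw B E).card : ℝ) ≤ E.card +
        ((B.biUnion fun s => (E.filter fun x => x * s ∉ E).image fun x => x * s).card : ℝ) := by
      exact_mod_cast h2
    nlinarith
  · by_cases h1 : 1 ≤ ε * E.card
    · nlinarith
    · push Not at h1
      obtain ⟨x, hx⟩ := hE
      have h2 : ∀ s ∈ N, x * s ∈ E := by
        intro s hs
        by_contra h3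
        have h4 := hb1 s (Finset.mem_union_right _ hs)
        have h5 : x ∈ E.filter fun x => x * s ∉ E := Finset.mem_filter.2 ⟨hx, h3⟩
        have h6 : 1 ≤ (E.filter fun x => x * s ∉ E).card := Finset.card_pos.2 ⟨x, h5⟩
        have h7 : (1 : ℝ) ≤ ((E.filter fun x => x * s ∉ E).card : ℝ) := by exact_mod_cast h6
        linarith
      have h3 : N.card ≤ E.card := by
        rw [← Finset.card_image_of_injective N (mul_right_injective x)]
        refine Finset.card_le_card fun y hy => ?_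
        obtain ⟨s, hs, rfl⟩ := Finset.mem_image.1 hy
        exact h2 s hs
      rw [hN] at h3
      have h4 : (n : ℝ) ≤ E.card := by exact_mod_cast h3
      have h5 : 1 ≤ δ * n := by
        rw [div_le_iff₀ hδ] at hn
        linarith
      nlinarith

variable {ι κ μ : Type}

/-- restriction to a finite window -/
noncomputable def rsw (ι : Type) (E : Finset Γ) :
    (ι → MonoidAlgebra ℚ Γ) →ₗ[ℚ] (ι → MonoidAlgebra ℚ Γ) := sec ι E ∘ₗ rho ι E

theorem rsw_mem (E : Finset Γ) (v : ι → MonoidAlgebra ℚ Γ) : rsw ι E v ∈ VW ι (E : Set Γ) := by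
  classical
  intro i g hg
  by_contra h
  apply hg
  show (sec ι E (rho ι E v) i).coeff g = 0
  rw [sec_coeff, dif_neg (fun h' => h (Finset.mem_coe.2 h'))]

theorem sub_rsw_mem (E : Finset Γ) (v : ι → MonoidAlgebra ℚ Γ) :
    v - rsw ι E v ∈ VW ι ((E : Set Γ)ᶜ) := by
  classical
  intro i g hg h
  apply hg
  have h1 : (rsw ι E v i).coeff g = (v i).coeff g := by
    show (sec ι E (rho ι E v) i).coeff g = _
    rw [sec_coeff, dif_pos (Finset.mem_coe.1 h)]
    rfl
  rw [Pi.sub_apply, MonoidAlgebra.coeff_sub, Finsupp.sub_apply, h1, sub_self]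

theorem rho_compl {E : Finset Γ} {v : ι → MonoidAlgebra ℚ Γ} (hv : v ∈ VW ι ((E : Set Γ)ᶜ)) :
    rho ι E v = 0 := by
  funext p
  rw [rho_apply]
  by_contra h
  exact hv p.1 p.2 h p.2.2

/-- (L2): elements of the window in the range come from a neighbouring window -/
theorem finrank_ker_le [Fintype ι] [DecidableEq ι] [Fintype κ] [DecidableEq κ]
    (T : (ι → MonoidAlgebra ℚ Γ) →ₗ[MonoidAlgebra ℚ Γ] (κ → MonoidAlgebra ℚ Γ)) {B : Finset Γ}
    (hT : Prop' T (B : Set Γ)) {W : Submodule ℚ (κ → MonoidAlgebra ℚ Γ)}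
    (hW : ∀ v ∈ W, ∃ w, T w = v) {E E2 : Finset Γ} (h2 : ∀ x, ∀ s ∈ B, x * s ∈ E → x ∈ E2) :
    finrank ℚ (VW κ (E : Set Γ) ⊓ W : Submodule ℚ _) ≤
      finrank ℚ ((VW ι (E2 : Set Γ)).map (toQ T)) := by
  have h3 : (VW κ (E : Set Γ) ⊓ W : Submodule ℚ _).map (rho κ E) ≤
      ((VW ι (E2 : Set Γ)).map (toQ T)).map (rho κ E) := by
    rintro _ ⟨v, ⟨_, hv2⟩, rfl⟩
    obtain ⟨w, rfl⟩ := hW v hv2
    refine ⟨T (rsw ι E2 w), ⟨rsw ι E2 w, rsw_mem E2 w, rfl⟩, ?_⟩
    have h4 : T (w - rsw ι E2 w) ∈ VW κ ((E : Set Γ)ᶜ) := by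
      refine hT.map_mem (E := (E2 : Set Γ)ᶜ) ?_ (sub_rsw_mem E2 w)
      intro x hx s hs hxs
      exact hx (Finset.mem_coe.2 (h2 x s hs hxs))
    have h5 := rho_compl h4
    rw [map_sub, map_sub, sub_eq_zero] at h5
    exact h5.symm
  have hfd : FiniteDimensional ℚ ((VW ι (E2 : Set Γ)).map (toQ T)) := inferInstance
  calc finrank ℚ (VW κ (E : Set Γ) ⊓ W : Submodule ℚ _)
      = finrank ℚ ((VW κ (E : Set Γ) ⊓ W : Submodule ℚ _).map (rho κ E)) := by
        rw [finrank_map_inj]
        exact fun v hv h => rho_inj hv.1 h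
    _ ≤ finrank ℚ (((VW ι (E2 : Set Γ)).map (toQ T)).map (rho κ E)) := Submodule.finrank_mono h3
    _ ≤ _ := Submodule.finrank_map_le _ _

/-- (L3) -/
theorem finrank_map_window [Fintype ι] {W : Type} [AddCommGroup W] [Module ℚ W]
    (T : (ι → MonoidAlgebra ℚ Γ) →ₗ[ℚ] W) {E E' : Finset Γ} (h : E ⊆ E') :
    finrank ℚ ((VW ι (E' : Set Γ)).map T) + Fintype.card ι * E.card ≤
      finrank ℚ ((VW ι (E : Set Γ)).map T) + Fintype.card ι * E'.card := by
  have h1 := finrank_ker_add T (VW ι (E : Set Γ))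
  have h2 := finrank_ker_add T (VW ι (E' : Set Γ))
  rw [finrank_VW] at h1 h2
  have h3 : finrank ℚ (VW ι (E : Set Γ) ⊓ LinearMap.ker T : Submodule ℚ _) ≤
      finrank ℚ (VW ι (E' : Set Γ) ⊓ LinearMap.ker T : Submodule ℚ _) := by
    have hfd : FiniteDimensional ℚ (VW ι (E' : Set Γ) ⊓ LinearMap.ker T : Submodule ℚ _) :=
      Submodule.finiteDimensional_of_le inf_le_left
    exact Submodule.finrank_mono (inf_le_inf_right _ (VW_mono (by exact_mod_cast h)))
  omega

end win

section euler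

variable {Γ : Type} [Group Γ] {m : ℕ} (P : PDG ℚ Γ m)

/-- the alternating sums of the ranks -/
def chi : ℕ → ℤ
  | 0 => P.r 0
  | i + 1 => P.r (i + 1) - chi i

/-- the cycles -/
noncomputable def cyc : ∀ i, Submodule ℚ (Fin (P.r i) → MonoidAlgebra ℚ Γ)
  | 0 => LinearMap.ker P.ε
  | i + 1 => LinearMap.ker (toQ (P.d i))

theorem cyc_iff {i : ℕ} (hi : i ≤ m) (v : Fin (P.r i) → MonoidAlgebra ℚ Γ) (h : i < m ∨ i = 0) :
    v ∈ cyc P i ↔ ∃ w, P.d i w = v := by
  cases i with
  | zero => exact P.ex0 v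
  | succ i =>
    rcases h with h | h
    · exact P.ex i (by omega) v
    · omega

/-- a finite symmetric set containing the supports of the first maps -/
theorem exists_sym (n : ℕ) : ∃ B : Finset Γ, (∀ i < n, Prop' (P.d i) (B : Set Γ)) ∧
    Prop' P.π (B : Set Γ) ∧ ∀ s ∈ B, s⁻¹ ∈ B := by
  classical
  have h1 : ∃ B : Finset Γ, ∀ i < n, Prop' (P.d i) (B : Set Γ) := by
    induction n with
    | zero => exact ⟨∅, fun i hi => absurd hi (Nat.not_lt_zero i)⟩
    | succ n ih =>
      obtain ⟨B, hB⟩ := ih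
      obtain ⟨B', hB'⟩ := exists_prop (P.d n)
      refine ⟨B ∪ B', fun i hi a b g hg => ?_⟩
      rw [Finset.coe_union]
      rcases Nat.lt_succ_iff_lt_or_eq.1 hi with h | rfl
      · exact Or.inl (hB i h a b g hg)
      · exact Or.inr (hB' a b g hg)
  obtain ⟨B, hB⟩ := h1
  obtain ⟨B', hB'⟩ := exists_prop P.π
  refine ⟨(B ∪ B') ∪ (B ∪ B').image fun x => x⁻¹, fun i hi a b g hg => ?_, fun a b g hg => ?_,
    fun s hs => ?_⟩
  · have := hB i hi a b g hg
    simp only [Finset.coe_union]
    exact Or.inl (Or.inl this)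
  · have := hB' a b g hg
    simp only [Finset.coe_union]
    exact Or.inl (Or.inr this)
  · rcases Finset.mem_union.1 hs with h | h
    · exact Finset.mem_union_right _ (Finset.mem_image_of_mem _ h)
    · obtain ⟨x, hx, rfl⟩ := Finset.mem_image.1 h
      rw [inv_inv]
      exact Finset.mem_union_left _ hx

/-- the dimension of the cycles in a window -/
theorem cyc_dim {B : Finset Γ} (hB : ∀ i < m, Prop' (P.d i) (B : Set Γ)) (hs : ∀ s ∈ B, s⁻¹ ∈ B)
    (i : ℕ) (hi : i ≤ m) : ∃ C : ℕ, ∀ E : Finset Γ,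
      |(finrank ℚ (VW (Fin (P.r i)) (E : Set Γ) ⊓ cyc P i : Submodule ℚ _) : ℤ) -
        chi P i * E.card| ≤ C * (1 + ((outw B E).card - E.card) + (E.card - (innw B E).card)) := by
  induction i with
  | zero =>
    refine ⟨1, fun E => ?_⟩
    have h1 := finrank_ker_add P.ε (VW (Fin (P.r 0)) (E : Set Γ))
    rw [finrank_VW, Fintype.card_fin] at h1
    have h2 : finrank ℚ ((VW (Fin (P.r 0)) (E : Set Γ)).map P.ε) ≤ 1 := by
      have := Submodule.finrank_le ((VW (Fin (P.r 0)) (E : Set Γ)).map P.ε)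
      rwa [Module.finrank_self] at this
    have h3 := Finset.card_le_card (sub_outw B E)
    have h4 := Finset.card_le_card (innw_sub B E)
    show |((finrank ℚ (VW (Fin (P.r 0)) (E : Set Γ) ⊓ LinearMap.ker P.ε : Submodule ℚ _) : ℕ) : ℤ) -
      (P.r 0 : ℤ) * E.card| ≤ _
    have h5 : ((P.r 0 : ℤ) * E.card) = ((P.r 0 * E.card : ℕ) : ℤ) := by push_cast; ring
    rw [h5, abs_le]
    constructor <;> push_cast <;> omega
  | succ i ih =>
    obtain ⟨C, hC⟩ := ih (by omega)
    refine ⟨C + P.r (i + 1), fun E => ?_⟩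
    have hC := hC E
    have h1 := finrank_ker_add (toQ (P.d i)) (VW (Fin (P.r (i + 1))) (E : Set Γ))
    rw [finrank_VW, Fintype.card_fin] at h1
    have h3 := Finset.card_le_card (sub_outw B E)
    have h4 := Finset.card_le_card (innw_sub B E)
    -- upper bound for the cycles below
    have h5 := finrank_ker_le (P.d i) (hB i (by omega)) (W := cyc P i)
      (fun v hv => (cyc_iff P (by omega) v (Or.inl (by omega))).1 hv) (E := E) (E2 := outw B E)
      (fun x s hs' hx => by
        have := mem_outw hx (hs s hs')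
        rwa [mul_inv_cancel_right] at this)
    have h6 := finrank_map_window (toQ (P.d i)) (sub_outw B E)
    rw [Fintype.card_fin] at h6
    -- lower bound
    have h7 : finrank ℚ ((VW (Fin (P.r (i + 1))) (innw B E : Set Γ)).map (toQ (P.d i))) ≤
        finrank ℚ (VW (Fin (P.r i)) (E : Set Γ) ⊓ cyc P i : Submodule ℚ _) := by
      have hfd : FiniteDimensional ℚ (VW (Fin (P.r i)) (E : Set Γ) ⊓ cyc P i : Submodule ℚ _) :=
        Submodule.finiteDimensional_of_le inf_le_left
      refine Submodule.finrank_mono ?_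
      rintro _ ⟨v, hv, rfl⟩
      refine ⟨(hB i (by omega)).map_mem (fun x hx s hs' => mem_innw hx hs') hv, ?_⟩
      exact (cyc_iff P (by omega) _ (Or.inl (by omega))).2 ⟨v, rfl⟩
    have h8 := finrank_map_window (toQ (P.d i)) (innw_sub B E)
    rw [Fintype.card_fin] at h8
    show |((finrank ℚ (VW (Fin (P.r (i + 1))) (E : Set Γ) ⊓ LinearMap.ker (toQ (P.d i)) :
      Submodule ℚ _) : ℕ) : ℤ) - ((P.r (i + 1) : ℤ) - chi P i) * E.card| ≤ _
    set a := finrank ℚ (VW (Fin (P.r (i + 1))) (E : Set Γ) ⊓ LinearMap.ker (toQ (P.d i)) :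
      Submodule ℚ _)
    set b := finrank ℚ ((VW (Fin (P.r (i + 1))) (E : Set Γ)).map (toQ (P.d i)))
    set c := finrank ℚ (VW (Fin (P.r i)) (E : Set Γ) ⊓ cyc P i : Submodule ℚ _)
    set o := (outw B E).card
    set e := E.card
    set n := (innw B E).card
    set r := P.r (i + 1)
    have e1 : (a : ℤ) = r * e - b := by
      have : ((b + a : ℕ) : ℤ) = ((r * e : ℕ) : ℤ) := by rw [h1]
      push_cast at this
      linarith
    have e2 : (c : ℤ) + r * e ≤ b + r * o := by
      have : ((c + r * e : ℕ) : ℤ) ≤ ((b + r * o : ℕ) : ℤ) := by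
        exact_mod_cast (Nat.add_le_add_right h5 _).trans h6
      push_cast at this
      exact this
    have e3 : (b : ℤ) + r * n ≤ c + r * e := by
      have : ((b + r * n : ℕ) : ℤ) ≤ ((c + r * e : ℕ) : ℤ) := by
        exact_mod_cast h8.trans (Nat.add_le_add_right h7 _)
      push_cast at this
      exact this
    have e4 : (e : ℤ) ≤ o := by exact_mod_cast h3
    have e5 : (n : ℤ) ≤ e := by exact_mod_cast h4
    have hr : (0 : ℤ) ≤ r := by positivity
    have hCC : (0 : ℤ) ≤ C := by positivity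
    rw [abs_le] at hC ⊢
    push_cast
    constructor <;> nlinarith [mul_nonneg hr (sub_nonneg.2 e4), mul_nonneg hr (sub_nonneg.2 e5)]

/-- the top projective in a window embeds in the cycles -/
theorem top_dim {B : Finset Γ} (hB : ∀ i < m + 1, Prop' (P.d i) (B : Set Γ)) (E : Finset Γ) :
    finrank ℚ ((VW (Fin (P.r (m + 1))) (innw B E : Set Γ)).map (toQ P.π)) ≤
      finrank ℚ (VW (Fin (P.r m)) (E : Set Γ) ⊓ cyc P m : Submodule ℚ _) := by
  have hfd : FiniteDimensional ℚ (VW (Fin (P.r m)) (E : Set Γ) ⊓ cyc P m : Submodule ℚ _) :=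
    Submodule.finiteDimensional_of_le inf_le_left
  rw [← finrank_map_inj (toQ (P.d m)) ((VW (Fin (P.r (m + 1))) (innw B E : Set Γ)).map (toQ P.π))
    (by
      rintro _ ⟨v, _, rfl⟩ h0
      have := P.ex_top _ h0
      rw [toQ_apply, P.pi_pi] at this
      exact this)]
  refine Submodule.finrank_mono ?_
  rintro _ ⟨_, ⟨v, hv, rfl⟩, rfl⟩
  rw [toQ_apply, toQ_apply, P.d_pi]
  refine ⟨(hB m (Nat.lt_succ_self m)).map_mem (fun x hx s hs' => mem_innw hx hs') hv, ?_⟩
  have h1 : ∀ i (hi : i = m), P.d i = P.d i → ∀ w, P.d i w ∈ cyc P i := by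
    intro i hi _ w
    cases i with
    | zero => exact (P.ex0 _).2 ⟨w, rfl⟩
    | succ i => exact (P.ex i (by omega) _).2 ⟨w, rfl⟩
  exact h1 m rfl rfl v

/-- the trace and the dimension in a window -/
theorem win_trace {B : Finset Γ} (hBπ : Prop' P.π (B : Set Γ)) (E : Finset Γ) :
    ((∑ j, (P.π (Pi.single j 1) j).coeff 1 : ℚ) : ℝ) * E.card ≤
      finrank ℚ ((VW (Fin (P.r (m + 1))) (innw B E : Set Γ)).map (toQ P.π)) +
        bnd P.π * (P.r (m + 1) * (E.card - (innw B E).card)) := by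
  classical
  set τ := ∑ j, (P.π (Pi.single j 1) j).coeff 1 with hτ
  set M := bnd P.π with hM
  set E1 := innw B E with hE1
  have hm1 : ∀ x ∈ E1, ∀ s ∈ B, x * s ∈ E := fun x hx s hs => mem_innw hx hs
  set Uq := (VW (Fin (P.r (m + 1))) (E1 : Set Γ)).map (toQ P.π) with hUq
  have hUE : Uq ≤ VW (Fin (P.r (m + 1))) (E : Set Γ) := by
    rintro _ ⟨v, hv, rfl⟩
    exact hBπ.map_mem hm1 hv
  set J : Finset (Fin (P.r (m + 1)) × E) := Finset.univ.filter fun p => (p.2 : Γ) ∈ E1 with hJ
  have hJc : J.card = P.r (m + 1) * E1.card := by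
    have h1 : J = Finset.univ ×ˢ (Finset.univ.filter fun x : E => (x : Γ) ∈ E1) := by
      ext p; simp [hJ]
    have h2 : (Finset.univ.filter fun x : E => (x : Γ) ∈ E1).card = E1.card := by
      refine Finset.card_bij (fun x _ => (x : Γ)) (fun x hx => (Finset.mem_filter.1 hx).2)
        (fun x _ y _ hxy => Subtype.ext hxy) fun x hx => ?_
      exact ⟨⟨x, innw_sub B E hx⟩, Finset.mem_filter.2 ⟨Finset.mem_univ _, hx⟩, rfl⟩
    rw [h1, Finset.card_product, Finset.card_univ, Fintype.card_fin, h2]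
  have hmain := trace_le (cmp P.π E) J M (bnd_nonneg _) (Uq.map (rho (Fin (P.r (m + 1))) E))
    (by
      rintro _ ⟨u, hu, rfl⟩
      rw [cmp_rho P.π E (hUE hu)]
      obtain ⟨v, _, rfl⟩ := hu
      rw [toQ_apply, P.pi_pi])
    (by
      rintro ⟨i, x⟩ hx
      have hx1 : (x : Γ) ∈ E1 := (Finset.mem_filter.1 hx).2
      set e : Fin (P.r (m + 1)) → MonoidAlgebra ℚ Γ := Pi.single i (single (x : Γ) 1) with he
      have hee : rho (Fin (P.r (m + 1))) E e = Pi.single (i, x) 1 := by
        funext p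
        rw [rho_apply, he]
        obtain ⟨j, y⟩ := p
        by_cases hij : j = i
        · subst hij
          simp only [Pi.single_eq_same, coeff_single]
          rw [Finsupp.single_apply, Pi.single_apply]
          by_cases hxy : (x : Γ) = y
          · rw [if_pos hxy, if_pos (by rw [Subtype.ext hxy])]
          · rw [if_neg hxy, if_neg (by
              intro h; exact hxy (by rw [Prod.mk.injEq] at h; rw [h.2]))]
        · have h8 : ((j, y) : Fin (P.r (m + 1)) × E) ≠ (i, x) := fun h => hij (congrArg Prod.fst h)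
          rw [Pi.single_eq_of_ne h8, Pi.single_eq_of_ne hij]
          rfl
      have hev : e ∈ VW (Fin (P.r (m + 1))) (E1 : Set Γ) := by
        intro j g hg
        by_cases hij : j = i
        · subst hij
          rw [he, Pi.single_eq_same, coeff_single, Finsupp.single_apply] at hg
          by_cases hxg : (x : Γ) = g
          · rw [← hxg]; exact hx1
          · rw [if_neg hxg] at hg; exact absurd rfl hg
        · rw [he, Pi.single_eq_of_ne hij] at hg
          simp at hg
      have hEE : VW (Fin (P.r (m + 1))) (E1 : Set Γ) ≤ VW (Fin (P.r (m + 1))) (E : Set Γ) :=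
        VW_mono (by intro y hy; exact innw_sub B E hy)
      refine ⟨rho (Fin (P.r (m + 1))) E (P.π e), ⟨P.π e, ⟨e, hev, rfl⟩, rfl⟩, ?_⟩
      have h9 := cmp_rho P.π E (hEE hev)
      have h10 : cmp P.π E *ᵥ rho (Fin (P.r (m + 1))) E (P.π e) =
          rho (Fin (P.r (m + 1))) E (P.π (P.π e)) :=
        cmp_rho P.π E (hUE ⟨e, hev, rfl⟩)
      rw [P.pi_pi] at h10
      rw [Matrix.mulVec_sub, ← hee]
      exact sub_eq_zero.2 (h9.trans h10.symm))
    (quad_le _ M (row_le P.π E) (col_le P.π E))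
  rw [trace_cmp, Fintype.card_prod, Fintype.card_fin, Fintype.card_coe, hJc] at hmain
  have hfdU : FiniteDimensional ℚ Uq := Submodule.finiteDimensional_of_le hUE
  have h1 : (finrank ℚ (Uq.map (rho (Fin (P.r (m + 1))) E)) : ℝ) ≤ finrank ℚ Uq := by
    exact_mod_cast Submodule.finrank_map_le _ _
  have h4 : ((E.card * τ : ℚ) : ℝ) = τ * E.card := by push_cast; ring
  rw [← hτ, h4] at hmain
  push_cast at hmain
  have h5 : M * (P.r (m + 1) * E.card - P.r (m + 1) * E1.card) =
      M * (P.r (m + 1) * (E.card - E1.card)) := by ring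
  linarith

/-- **EUL**: the canonical trace of the top projective is at most the alternating sum of the
ranks -/
theorem eul (hF : Folner Γ) (hI : Infinite Γ) :
    ∑ j, (P.π (Pi.single j 1) j).coeff 1 ≤ ((chi P m : ℤ) : ℚ) := by
  obtain ⟨B, hB, hBπ, hs⟩ := exists_sym P (m + 1)
  obtain ⟨C, hC⟩ := cyc_dim P (fun i hi => hB i (by omega)) hs m le_rfl
  set τ := ∑ j, (P.π (Pi.single j 1) j).coeff 1 with hτ
  have hM := bnd_nonneg P.π
  have hlim : (τ : ℝ) ≤ ((chi P m : ℤ) : ℝ) := by
    refine le_of_forall_pos_le_add fun δ hδ => ?_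
    set D : ℝ := 3 * C + bnd P.π * P.r (m + 1) + 1 with hD
    have hD0 : 0 < D := by positivity
    obtain ⟨E, hE, hw1, hw2, hw3⟩ := exists_window hF hI B (δ / D) (by positivity)
    have h1 := win_trace P hBπ E
    have h2 : (finrank ℚ ((VW (Fin (P.r (m + 1))) (innw B E : Set Γ)).map (toQ P.π)) : ℝ) ≤
        finrank ℚ (VW (Fin (P.r m)) (E : Set Γ) ⊓ cyc P m : Submodule ℚ _) := by
      exact_mod_cast top_dim P hB E
    have h3 : (finrank ℚ (VW (Fin (P.r m)) (E : Set Γ) ⊓ cyc P m : Submodule ℚ _) : ℝ) ≤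
        (chi P m : ℤ) * E.card +
          C * (1 + ((outw B E).card - E.card) + (E.card - (innw B E).card)) := by
      have h4 := (abs_le.1 (hC E)).2
      have h5 : (finrank ℚ (VW (Fin (P.r m)) (E : Set Γ) ⊓ cyc P m : Submodule ℚ _) : ℤ) ≤
        (chi P m : ℤ) * E.card +
          C * (1 + ((outw B E).card - E.card) + (E.card - (innw B E).card)) := by linarith
      exact_mod_cast h5
    have hEpos : (0 : ℝ) < E.card := by exact_mod_cast hE.card_pos
    set x : ℝ := δ / D * E.card with hx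
    have h6 : C * (1 + (((outw B E).card : ℝ) - E.card) + (E.card - (innw B E).card)) ≤
        C * (3 * x) := mul_le_mul_of_nonneg_left (by linarith) (Nat.cast_nonneg _)
    have h7 : bnd P.π * (P.r (m + 1) * ((E.card : ℝ) - (innw B E).card)) ≤
        bnd P.π * (P.r (m + 1) * x) :=
      mul_le_mul_of_nonneg_left (mul_le_mul_of_nonneg_left hw1 (Nat.cast_nonneg _)) hM
    have h8 : D * x = δ * E.card := by
      rw [hx]; field_simp
    have hx0 : 0 < x := by positivity
    have h9 : (τ : ℝ) * E.card ≤ ((chi P m : ℤ) + δ) * E.card := by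
      have : C * (3 * x) + bnd P.π * (P.r (m + 1) * x) ≤ D * x := by
        rw [hD]; nlinarith
      nlinarith
    exact le_of_mul_le_mul_right h9 hEpos
  exact_mod_cast hlim

end euler

/-- the statement for `PD₄` resolutions -/
def StmtEul : Prop := ∀ (Γ : Type) [Group Γ] (P : PDG ℚ Γ 3), Folner Γ → Infinite Γ →
  ∑ j, (P.π (Pi.single j 1) j).coeff 1 ≤ (P.r 3 : ℚ) - P.r 2 + P.r 1 - P.r 0

theorem stmtEul : StmtEul := by
  intro Γ _ P hF hI
  refine (eul P hF hI).trans (le_of_eq ?_)
  simp only [chi]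
  push_cast
  ring

end Vale.Agent.P260.H81
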