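import Mathlib
import Vale.Agent.P260.H493.Basic

/-!
# P260 climb, V5: almost invariant functions on a group with `PDG ℚ Γ 0`
-/

namespace Vale.Agent.P260.H81

open Vale.Agent.P260.H493
open MonoidAlgebra (single)

section alg

variable {Γ : Type} [Group Γ]

theorem k_smul {α : Type} (r : ℚ) (v : α → MonoidAlgebra ℚ Γ) :
    r • v = single (1 : Γ) r • v := by
  funext i
  apply MonoidAlgebra.ext
  ext y
  simp

theorem smul_smul' {α : Type} (g h : Γ) (v : α → MonoidAlgebra ℚ Γ) :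
    single g (1 : ℚ) • single h (1 : ℚ) • v = single (g * h) (1 : ℚ) • v := by
  rw [smul_smul, MonoidAlgebra.single_mul_single, mul_one]

/-- an additive map which commutes with all `single g r` is linear -/
theorem lin_of {M N : Type} [AddCommMonoid M] [AddCommMonoid N] [Module (MonoidAlgebra ℚ Γ) M]
    [Module (MonoidAlgebra ℚ Γ) N] (T : M →+ N)
    (h : ∀ (g : Γ) (r : ℚ) (v : M), T (single g r • v) = single g r • T v)
    (a : MonoidAlgebra ℚ Γ) (v : M) :
    T (a • v) = a • T v := by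
  induction a using MonoidAlgebra.induction_linear with
  | zero => simp
  | add x y hx hy => rw [add_smul, map_add, hx, hy, add_smul]
  | single g r => exact h g r v

/-- The `ℚ[Γ]`-linear map with a given coefficient functional. -/
noncomputable def mkA {n : ℕ} (l : (Fin n → MonoidAlgebra ℚ Γ) →ₗ[ℚ] ℚ)
    (hl : ∀ v, {x : Γ | l (single x⁻¹ (1 : ℚ) • v) ≠ 0}.Finite) :
    (Fin n → MonoidAlgebra ℚ Γ) →ₗ[MonoidAlgebra ℚ Γ] MonoidAlgebra ℚ Γ :=
  let T : (Fin n → MonoidAlgebra ℚ Γ) →+ MonoidAlgebra ℚ Γ :=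
    { toFun := fun v => MonoidAlgebra.ofCoeff
        (Finsupp.ofSupportFinite (fun x => l (single x⁻¹ (1 : ℚ) • v)) (hl v))
      map_zero' := by
        apply MonoidAlgebra.ext; ext x; simp [Finsupp.ofSupportFinite]
      map_add' := by
        intro v w
        apply MonoidAlgebra.ext
        ext x
        show l (single x⁻¹ (1 : ℚ) • (v + w)) = l (single x⁻¹ (1 : ℚ) • v) +
          l (single x⁻¹ (1 : ℚ) • w)
        rw [smul_add, map_add] }
  { toFun := T
    map_add' := map_add T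
    map_smul' := by
      intro a v
      refine lin_of T ?_ a v
      intro g r v
      apply MonoidAlgebra.ext
      ext x
      rw [smul_eq_mul, coeff_single_mul']
      show l (single x⁻¹ (1 : ℚ) • single g r • v) = r * l (single (g⁻¹ * x)⁻¹ (1 : ℚ) • v)
      have h1 : single x⁻¹ (1 : ℚ) • single g r • v = r • single (g⁻¹ * x)⁻¹ (1 : ℚ) • v := by
        rw [k_smul, smul_smul, smul_smul, MonoidAlgebra.single_mul_single,
          MonoidAlgebra.single_mul_single]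
        congr 2
        · group
        · ring
      rw [h1, map_smul, smul_eq_mul] }

theorem mkA_coeff {n : ℕ} (l : (Fin n → MonoidAlgebra ℚ Γ) →ₗ[ℚ] ℚ)
    (hl : ∀ v, {x : Γ | l (single x⁻¹ (1 : ℚ) • v) ≠ 0}.Finite) (v) (x : Γ) :
    (mkA l hl v).coeff x = l (single x⁻¹ (1 : ℚ) • v) := rfl

/-- The coefficient functional of a `ℚ[Γ]`-linear map. -/
noncomputable def cf {n : ℕ}
    (φ : (Fin n → MonoidAlgebra ℚ Γ) →ₗ[MonoidAlgebra ℚ Γ] MonoidAlgebra ℚ Γ) :
    (Fin n → MonoidAlgebra ℚ Γ) →ₗ[ℚ] ℚ where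
  toFun v := (φ v).coeff 1
  map_add' v w := by simp
  map_smul' r v := by
    rw [k_smul, φ.map_smul, smul_eq_mul, coeff_single_mul']
    simp

theorem cf_apply {n : ℕ}
    (φ : (Fin n → MonoidAlgebra ℚ Γ) →ₗ[MonoidAlgebra ℚ Γ] MonoidAlgebra ℚ Γ) (v) :
    cf φ v = (φ v).coeff 1 := rfl

theorem cf_coeff {n : ℕ}
    (φ : (Fin n → MonoidAlgebra ℚ Γ) →ₗ[MonoidAlgebra ℚ Γ] MonoidAlgebra ℚ Γ) (v) (x : Γ) :
    cf φ (single x⁻¹ (1 : ℚ) • v) = (φ v).coeff x := by
  rw [cf_apply, φ.map_smul, smul_eq_mul, coeff_single_mul']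
  simp

end alg

section ai

variable {Γ : Type} [Group Γ]

/-- almost invariant functions -/
def AI (f : Γ → ℚ) : Prop := ∀ g : Γ, {x | f (g⁻¹ * x) ≠ f x}.Finite

/-- the functional on the group algebra given by a function -/
noncomputable def ft (f : Γ → ℚ) : MonoidAlgebra ℚ Γ →ₗ[ℚ] ℚ :=
  Finsupp.linearCombination ℚ (fun y : Γ => f y⁻¹) ∘ₗ (MonoidAlgebra.coeffLinearEquiv ℚ).toLinearMap

theorem ft_single (f : Γ → ℚ) (y : Γ) (r : ℚ) : ft f (single y r) = r * f y⁻¹ := by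
  simp [ft, Finsupp.linearCombination_single]

variable (P : PDG ℚ Γ 0)

/-- the functional on `F_0` given by a function -/
noncomputable def mu (f : Γ → ℚ) : (Fin (P.r 0) → MonoidAlgebra ℚ Γ) →ₗ[ℚ] ℚ :=
  ∑ j, (P.ε (Pi.single j 1)) • (ft f ∘ₗ LinearMap.proj j)

theorem mu_basis (f : Γ → ℚ) (g : Γ) (j : Fin (P.r 0)) :
    mu P f (single g (1 : ℚ) • Pi.single j 1) = P.ε (Pi.single j 1) * f g⁻¹ := by
  classical
  rw [mu, LinearMap.sum_apply, Finset.sum_eq_single j]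
  · simp [ft_single]
  · intro b _ hb
    simp [Pi.single_eq_of_ne hb]
  · simp

theorem fin_mu {f : Γ → ℚ} (hf : AI f) (u : Fin (P.r 0) → MonoidAlgebra ℚ Γ) :
    {x : Γ | mu P f (single x⁻¹ (1 : ℚ) • u) ≠ P.ε u * f x}.Finite := by
  let W : Submodule ℚ (Fin (P.r 0) → MonoidAlgebra ℚ Γ) :=
    { carrier := {u | {x : Γ | mu P f (single x⁻¹ (1 : ℚ) • u) ≠ P.ε u * f x}.Finite}
      zero_mem' := by
        show {x : Γ | _}.Finite
        simp
      add_mem' := by
        intro u v hu hv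
        refine (hu.union hv).subset fun x hx => ?_
        by_contra hcon
        rw [Set.mem_union, not_or] at hcon
        obtain ⟨h1, h2⟩ := hcon
        apply hx
        have h1' := not_not.1 h1
        have h2' := not_not.1 h2
        rw [smul_add, map_add, map_add, h1', h2']
        ring
      smul_mem' := by
        intro r u hu
        refine hu.subset fun x hx => ?_
        intro hcon
        apply hx
        have e1 : mu P f (r • single x⁻¹ (1 : ℚ) • u) = r • mu P f (single x⁻¹ (1 : ℚ) • u) :=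
          LinearMap.map_smul _ _ _
        have e2 : P.ε (r • u) = r • P.ε u := LinearMap.map_smul _ _ _
        rw [smul_comm (single x⁻¹ (1 : ℚ)) r u, e1, e2, hcon]
        simp only [smul_eq_mul]
        ring }
  have h1 : ∀ (g : Γ) (j : Fin (P.r 0)), single g (1 : ℚ) • (Pi.single j 1) ∈ W := by
    intro g j
    refine (hf g).subset fun x hx => ?_
    intro hcon
    apply hx
    show mu P f (single x⁻¹ (1 : ℚ) • single g (1 : ℚ) • Pi.single j 1) =
      P.ε (single g (1 : ℚ) • Pi.single j 1) * f x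
    rw [smul_smul', mu_basis, P.eps_smul, ← hcon]
    congr 2
    group
  show u ∈ W
  rw [expand u]
  refine Submodule.sum_mem _ fun j _ => Submodule.sum_mem _ fun g _ => ?_
  exact W.smul_mem _ (h1 g j)

theorem fin_mu0 {f : Γ → ℚ} (hf : AI f) (w : Fin (P.r 1) → MonoidAlgebra ℚ Γ) :
    {x : Γ | (mu P f ∘ₗ (P.d 0).restrictScalars ℚ) (single x⁻¹ (1 : ℚ) • w) ≠ 0}.Finite := by
  refine (fin_mu P hf (P.d 0 w)).subset fun x hx => ?_
  intro hcon
  apply hx
  rw [(P.ex0 _).2 ⟨w, rfl⟩, zero_mul] at hcon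
  show mu P f (P.d 0 _) = 0
  rw [(P.d 0).map_smul, hcon]

theorem factor {E F : Type} [AddCommGroup E] [Module ℚ E] [AddCommGroup F] [Module ℚ F]
    (d : E →ₗ[ℚ] F) (l : E →ₗ[ℚ] ℚ) (h : ∀ v, d v = 0 → l v = 0) : ∃ m : F →ₗ[ℚ] ℚ, l = m ∘ₗ d := by
  have h1 : l ∈ LinearMap.range d.dualMap := by
    rw [LinearMap.range_dualMap_eq_dualAnnihilator_ker, Submodule.mem_dualAnnihilator]
    exact fun v hv => h v hv
  obtain ⟨m, hm⟩ := h1
  exact ⟨m, hm.symm⟩

/-- a functional that vanishes on boundaries is a multiple of the augmentation -/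
theorem eps_mult (l : (Fin (P.r 0) → MonoidAlgebra ℚ Γ) →ₗ[ℚ] ℚ) (h : ∀ w, l (P.d 0 w) = 0) :
    ∃ c : ℚ, ∀ v, l v = P.ε v * c := by
  obtain ⟨u, hu⟩ := P.eps_surj 1
  refine ⟨l u, fun v => ?_⟩
  obtain ⟨w, hw⟩ := (P.ex0 (v - P.ε v • u)).1 (by rw [map_sub, map_smul, hu]; simp)
  have := h w
  rw [hw, map_sub, map_smul, sub_eq_zero] at this
  simpa using this

include P

/-- **Rank.** -/
theorem rank_le {f₁ f₂ : Γ → ℚ} (h₁ : AI f₁) (h₂ : AI f₂) :
    ∃ a b c : ℚ, (a ≠ 0 ∨ b ≠ 0) ∧ {x | a * f₁ x + b * f₂ x ≠ c}.Finite := by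
  obtain ⟨φ₀, -, -, hφ⟩ := P.co_top
  have key : ∀ {f : Γ → ℚ} (hf : AI f), ∃ (c : ℚ)
      (χ : (Fin (P.r 0) → MonoidAlgebra ℚ Γ) →ₗ[MonoidAlgebra ℚ Γ] MonoidAlgebra ℚ Γ),
      ∀ v, mu P f (P.d 0 v) = c * cf φ₀ v + cf χ (P.d 0 v) := by
    intro f hf
    obtain ⟨c, χ, h⟩ := hφ (mkA _ (fin_mu0 P hf)) (by
      refine LinearMap.ext fun v => ?_
      apply MonoidAlgebra.ext
      ext x
      rw [LinearMap.comp_apply, mkA_coeff, mkA_coeff]
      show mu P f (P.d 0 _) = mu P f (P.d 0 _)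
      rw [(P.d 0).map_smul, P.d_pi, (P.d 0).map_smul])
    refine ⟨c, χ, fun v => ?_⟩
    have h1 := congrArg (fun a => a.coeff 1) (h v)
    have h2 : (mkA _ (fin_mu0 P hf) v).coeff 1 = mu P f (P.d 0 v) := by
      rw [mkA_coeff]
      show mu P f (P.d 0 _) = _
      rw [inv_one, ← MonoidAlgebra.one_def, one_smul]
    rw [← h2]
    exact h1
  obtain ⟨c₁, χ₁, k₁⟩ := key h₁
  obtain ⟨c₂, χ₂, k₂⟩ := key h₂
  obtain ⟨a, b, hab, hc⟩ : ∃ a b : ℚ, (a ≠ 0 ∨ b ≠ 0) ∧ a * c₁ + b * c₂ = 0 := by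
    by_cases h : c₂ = 0
    · by_cases h' : c₁ = 0
      · exact ⟨1, 0, by simp, by rw [h, h']; ring⟩
      · exact ⟨0, 1, by simp, by rw [h]; ring⟩
    · exact ⟨c₂, -c₁, Or.inl h, by ring⟩
  obtain ⟨c, hcc⟩ := eps_mult P (a • mu P f₁ + b • mu P f₂ - a • cf χ₁ - b • cf χ₂) (by
    intro w
    simp only [LinearMap.sub_apply, LinearMap.add_apply, LinearMap.smul_apply, smul_eq_mul, k₁ w,
      k₂ w]
    linear_combination (cf φ₀ w) * hc)
  obtain ⟨u, hu⟩ := P.eps_surj 1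
  refine ⟨a, b, c, hab, ?_⟩
  refine (((fin_mu P h₁ u).union (fin_mu P h₂ u)).union
    ((χ₁ u).coeff.hasFiniteSupport.union (χ₂ u).coeff.hasFiniteSupport)).subset fun x hx => ?_
  by_contra hcon
  simp only [Set.mem_union, not_or] at hcon
  obtain ⟨⟨e1, e2⟩, e3, e4⟩ := hcon
  apply hx
  have h := hcc (single x⁻¹ (1 : ℚ) • u)
  have e1' := not_not.1 e1
  have e2' := not_not.1 e2
  have e3' : (χ₁ u).coeff x = 0 := by simpa using e3
  have e4' : (χ₂ u).coeff x = 0 := by simpa using e4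
  simp only [LinearMap.sub_apply, LinearMap.add_apply, LinearMap.smul_apply, smul_eq_mul, cf_coeff,
    e1', e2', e3', e4', hu, P.eps_smul] at h
  linarith

/-- **Existence.** -/
theorem exists_ai : ∃ f : Γ → ℚ, AI f ∧ ∀ c, {x | f x ≠ c}.Infinite := by
  obtain ⟨φ₀, hφπ, hφn, -⟩ := P.co_top
  obtain ⟨m, hm⟩ := factor ((P.d 0).restrictScalars ℚ) (cf φ₀) (by
    intro v hv
    have h1 : P.π v = 0 := P.ex_top v hv
    rw [cf_apply, ← hφπ, LinearMap.comp_apply, h1, map_zero]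
    rfl)
  have hm' : ∀ w x, m (single x⁻¹ (1 : ℚ) • P.d 0 w) = (φ₀ w).coeff x := by
    intro w x
    rw [← cf_coeff, hm]
    show _ = m (P.d 0 _)
    rw [(P.d 0).map_smul]
  obtain ⟨u, hu⟩ := P.eps_surj 1
  refine ⟨fun x => m (single x⁻¹ (1 : ℚ) • u), ?_, ?_⟩
  · intro g
    obtain ⟨w, hw⟩ := (P.ex0 (single g (1 : ℚ) • u - u)).1 (by
      rw [map_sub, P.eps_smul, sub_self])
    refine (φ₀ w).coeff.hasFiniteSupport.subset fun x hx => ?_
    simp only [Function.mem_support]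
    intro hcon
    apply hx
    rw [← hm', hw, smul_sub, map_sub, smul_smul', sub_eq_zero] at hcon
    show m (single (g⁻¹ * x)⁻¹ (1 : ℚ) • u) = m (single x⁻¹ (1 : ℚ) • u)
    rw [← hcon, mul_inv_rev, inv_inv]
  · intro c hfin
    apply hφn
    have hl : ∀ v, {x : Γ | (m - c • P.ε) (single x⁻¹ (1 : ℚ) • v) ≠ 0}.Finite := by
      intro v
      obtain ⟨w, hw⟩ := (P.ex0 (v - P.ε v • u)).1 (by rw [map_sub, map_smul, hu]; simp)
      refine (hfin.union (φ₀ w).coeff.hasFiniteSupport).subset fun x hx => ?_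
      by_contra hcon
      simp only [Set.mem_union, not_or] at hcon
      obtain ⟨e1, e2⟩ := hcon
      have e1' : m (single x⁻¹ (1 : ℚ) • u) = c := not_not.1 e1
      have e2' : (φ₀ w).coeff x = 0 := by simpa using e2
      apply hx
      have e3 : m (P.ε v • single x⁻¹ (1 : ℚ) • u) = P.ε v • m (single x⁻¹ (1 : ℚ) • u) :=
        LinearMap.map_smul _ _ _
      rw [← hm', hw, smul_sub, map_sub, smul_comm (single x⁻¹ (1 : ℚ)) (P.ε v) u, e3,
        e1'] at e2'
      rw [LinearMap.sub_apply, LinearMap.smul_apply, P.eps_smul]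
      simp only [smul_eq_mul] at e2' ⊢
      linarith
    refine ⟨mkA _ hl, ?_⟩
    refine LinearMap.ext fun w => ?_
    apply MonoidAlgebra.ext
    ext x
    rw [LinearMap.comp_apply, mkA_coeff, LinearMap.sub_apply, hm', LinearMap.smul_apply,
      P.eps_smul, (P.ex0 _).2 ⟨w, rfl⟩]
    simp

end ai

end Vale.Agent.P260.H81
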