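import Mathlib
import Vale.Agent.P260.H81.V5A

/-!
# P260 climb, V5: groups with one-dimensional duality are virtually cyclic
-/

namespace Vale.Agent.P260.H81

open Vale.Agent.P260.H493

variable {Γ : Type} [Group Γ]

/-- balls in the Cayley graph (left multiplication) -/
def ball (S : Finset Γ) : ℕ → Set Γ
  | 0 => {1}
  | n + 1 => ball S n ∪ {x | ∃ s ∈ S, ∃ y ∈ ball S n, x = s * y}

theorem ball_finite (S : Finset Γ) (n : ℕ) : (ball S n).Finite := by
  induction n with
  | zero => exact Set.finite_singleton _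
  | succ n ih =>
    refine ih.union ?_
    refine ((S.finite_toSet.prod ih).image fun p : Γ × Γ => p.1 * p.2).subset ?_
    rintro x ⟨s, hs, y, hy, rfl⟩
    exact ⟨(s, y), ⟨hs, hy⟩, rfl⟩

theorem one_mem_ball (S : Finset Γ) (n : ℕ) : (1 : Γ) ∈ ball S n := by
  induction n with
  | zero => exact rfl
  | succ n ih => exact Or.inl ih

theorem ball_mono (S : Finset Γ) {m n : ℕ} (h : m ≤ n) : ball S m ⊆ ball S n := by
  induction h with
  | refl => exact subset_rfl
  | step _ ih => exact ih.trans Set.subset_union_left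

theorem exists_ball {S : Finset Γ} (hS : GenSet S) (x : Γ) : ∃ n, x ∈ ball S n := by
  have hx : x ∈ Subgroup.closure (S : Set Γ) := by rw [hS.gen]; trivial
  induction hx using Subgroup.closure_induction_left with
  | one => exact ⟨0, rfl⟩
  | mul_left s hs x _ ih =>
    obtain ⟨n, hn⟩ := ih
    exact ⟨n + 1, Or.inr ⟨s, hs, x, hn, rfl⟩⟩
  | inv_mul_cancel s hs x _ ih =>
    obtain ⟨n, hn⟩ := ih
    exact ⟨n + 1, Or.inr ⟨s⁻¹, hS.inv s hs, x, hn, rfl⟩⟩

theorem exists_ball_of_finite {S : Finset Γ} (hS : GenSet S) {D : Set Γ} (hD : D.Finite) :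
    ∃ n, D ⊆ ball S n := by
  induction D, hD using Set.Finite.induction_on with
  | empty => exact ⟨0, Set.empty_subset _⟩
  | insert _ _ ih =>
    rename_i a s _ _
    obtain ⟨n, hn⟩ := ih
    obtain ⟨m, hm⟩ := exists_ball hS a
    refine ⟨max m n, Set.insert_subset ?_ ?_⟩
    · exact ball_mono S (le_max_left _ _) hm
    · exact hn.trans (ball_mono S (le_max_right _ _))

/-- finite generating sets -/
theorem exists_genSet (h : Group.FG Γ) : ∃ S : Finset Γ, GenSet S := by
  classical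
  obtain ⟨_, T, -, hT⟩ := Group.fg_iff'.1 h
  refine ⟨T ∪ T.image (fun x => x⁻¹), ?_, ?_⟩
  · rw [eq_top_iff, ← hT]
    apply Subgroup.closure_mono
    intro x hx
    exact Finset.mem_coe.2 (Finset.mem_union_left _ hx)
  · intro s hs
    rcases Finset.mem_union.1 hs with h | h
    · exact Finset.mem_union_right _ (Finset.mem_image_of_mem _ h)
    · obtain ⟨x, hx, rfl⟩ := Finset.mem_image.1 h
      rw [inv_inv]
      exact Finset.mem_union_left _ hx

/-- an almost invariant function on a finitely generated group has finitely many values -/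
theorem AI.finite_range {S : Finset Γ} (hS : GenSet S) {f : Γ → ℚ} (hf : AI f) :
    (Set.range f).Finite := by
  have hD : (⋃ s ∈ S, {x | f (s⁻¹ * x) ≠ f x}).Finite :=
    S.finite_toSet.biUnion fun s _ => hf s
  refine ((hD.image f).union (Set.finite_singleton (f 1))).subset ?_
  rintro _ ⟨x, rfl⟩
  obtain ⟨n, hn⟩ := exists_ball hS x
  induction n generalizing x with
  | zero =>
    have : x = 1 := hn
    rw [this]; exact Or.inr rfl
  | succ n ih =>
    rcases hn with hn | ⟨s, hs, y, hy, rfl⟩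
    · exact ih x hn
    · by_cases hx : s * y ∈ ⋃ s ∈ S, {x | f (s⁻¹ * x) ≠ f x}
      · exact Or.inl ⟨_, hx, rfl⟩
      · have : f (s⁻¹ * (s * y)) = f (s * y) := by
          by_contra hne
          exact hx (Set.mem_biUnion hs hne)
        rw [inv_mul_cancel_left] at this
        rw [← this]
        exact ih y hy

/-- almost invariant sets -/
def AIs (B : Set Γ) : Prop := ∀ g : Γ, {x | ¬(g⁻¹ * x ∈ B ↔ x ∈ B)}.Finite

open Classical in
/-- indicator function -/
noncomputable def ind (B : Set Γ) (x : Γ) : ℚ := if x ∈ B then 1 else 0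

omit [Group Γ] in
theorem ind_of {B : Set Γ} {x : Γ} (h : x ∈ B) : ind B x = 1 := by simp [ind, h]

omit [Group Γ] in
theorem ind_not {B : Set Γ} {x : Γ} (h : x ∉ B) : ind B x = 0 := by simp [ind, h]

theorem AIs.ai {B : Set Γ} (h : AIs B) : AI (ind B) := by
  intro g
  refine (h g).subset fun x hx hcon => hx ?_
  by_cases hb : x ∈ B
  · rw [ind_of hb, ind_of (hcon.2 hb)]
  · rw [ind_not hb, ind_not fun h => hb (hcon.1 h)]

/-- right translate -/
def rt (B : Set Γ) (g : Γ) : Set Γ := {x | x * g⁻¹ ∈ B}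

theorem finite_rt {D : Set Γ} (hD : D.Finite) (g : Γ) : {x | x * g⁻¹ ∈ D}.Finite :=
  hD.preimage (mul_left_injective _).injOn

theorem AIs.rt {B : Set Γ} (h : AIs B) (g : Γ) : AIs (rt B g) := by
  intro a
  refine (finite_rt (h a) g).subset fun x hx => ?_
  show ¬ (a⁻¹ * (x * g⁻¹) ∈ B ↔ x * g⁻¹ ∈ B)
  rw [← mul_assoc]; exact hx

theorem infinite_rt {D : Set Γ} (hD : D.Infinite) (g : Γ) : {x | x * g⁻¹ ∈ D}.Infinite := by
  intro hcon
  apply hD
  have := finite_rt hcon g⁻¹
  simpa using this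

variable (P : PDG ℚ Γ 0)

include P in
/-- there is an infinite coinfinite almost invariant set -/
theorem exists_ais {S : Finset Γ} (hS : GenSet S) :
    ∃ B : Set Γ, AIs B ∧ B.Infinite ∧ Bᶜ.Infinite := by
  obtain ⟨f, hf, hc⟩ := exists_ai P
  have hfin := hf.finite_range hS
  have : ∃ c, {x | f x = c}.Infinite := by
    by_contra hcon
    push Not at hcon
    have h1 : (⋃ c ∈ Set.range f, {x | f x = c}).Finite :=
      hfin.biUnion fun c _ => hcon c
    refine hc 0 (h1.subset fun x _ => ?_)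
    exact Set.mem_biUnion ⟨x, rfl⟩ rfl
  obtain ⟨c, h⟩ := this
  refine ⟨{x | f x = c}, fun g => ?_, h, hc c⟩
  refine (hf g).subset fun x hx hcon => hx ?_
  show f (g⁻¹ * x) = c ↔ f x = c
  rw [hcon]

include P in
/-- a right translate of the set is almost equal to the set or to its complement -/
theorem rt_or {B : Set Γ} (hB : AIs B) (h1 : B.Infinite) (h2 : Bᶜ.Infinite) (g : Γ) :
    {x | ¬(x ∈ B ↔ x * g⁻¹ ∈ B)}.Finite ∨ {x | (x ∈ B ↔ x * g⁻¹ ∈ B)}.Finite := by
  obtain ⟨a, b, c, hab, hF⟩ := rank_le P hB.ai (hB.rt g).ai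
  set F := {x | a * ind B x + b * ind (rt B g) x ≠ c} with hFdef
  have e : ∀ x, x ∉ F → a * ind B x + b * ind (rt B g) x = c := fun x hx => not_not.1 hx
  have i1 : ∀ {D : Set Γ}, D.Infinite → ∃ x ∈ D, x ∉ F := fun hD => (hD.sdiff hF).nonempty
  have g1 := infinite_rt h1 g
  have g2 := infinite_rt h2 g
  by_contra hcon
  rw [not_or] at hcon
  obtain ⟨x, hx, hxF⟩ := i1 hcon.1
  obtain ⟨y, hy, hyF⟩ := i1 hcon.2
  obtain ⟨p, hp, hpF⟩ := i1 h1
  obtain ⟨q, hq, hqF⟩ := i1 h2
  obtain ⟨r, hr, hrF⟩ := i1 g1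
  obtain ⟨t, ht, htF⟩ := i1 g2
  have ex := e x hxF
  have ey := e y hyF
  have ep := e p hpF
  have eq := e q hqF
  have er := e r hrF
  have et := e t htF
  have hr' : r ∈ rt B g := hr
  have ht' : t ∉ rt B g := ht
  rw [ind_of hp] at ep
  rw [ind_not hq] at eq
  rw [ind_of hr'] at er
  rw [ind_not ht'] at et
  have hz : a = 0 ∧ b = 0 := by
    have hx' : ¬ (x ∈ B ↔ x ∈ rt B g) := hx
    have hy' : (y ∈ B ↔ y ∈ rt B g) := hy
    by_cases x1 : x ∈ B
    · have x2 : x ∉ rt B g := fun h => hx' ⟨fun _ => h, fun _ => x1⟩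
      rw [ind_of x1, ind_not x2] at ex
      have e1 : a = c := by linarith
      by_cases y1 : y ∈ B
      · rw [ind_of y1, ind_of (hy'.1 y1)] at ey
        have e2 : b = 0 := by linarith
        rw [e2] at eq
        exact ⟨by linarith, e2⟩
      · rw [ind_not y1, ind_not fun h => y1 (hy'.2 h)] at ey
        have e2 : a = 0 := by linarith
        rw [e2] at er
        exact ⟨e2, by linarith⟩
    · have x2 : x ∈ rt B g := by
        by_contra h
        exact hx' ⟨fun h' => absurd h' x1, fun h' => absurd h' h⟩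
      rw [ind_not x1, ind_of x2] at ex
      have e1 : b = c := by linarith
      by_cases y1 : y ∈ B
      · rw [ind_of y1, ind_of (hy'.1 y1)] at ey
        have e2 : a = 0 := by linarith
        rw [e2] at et
        exact ⟨e2, by linarith⟩
      · rw [ind_not y1, ind_not fun h => y1 (hy'.2 h)] at ey
        have e2 : b = 0 := by linarith
        rw [e2] at ep
        exact ⟨by linarith, e2⟩
  rcases hab with h | h
  · exact h hz.1
  · exact h hz.2

/-- the stabiliser of the almost equality class -/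
def stab (B : Set Γ) : Subgroup Γ where
  carrier := {g | {x | ¬(x ∈ B ↔ x * g⁻¹ ∈ B)}.Finite}
  one_mem' := by
    show {x | _}.Finite
    simp
  mul_mem' := by
    intro g h hg hh
    refine (hh.union (finite_rt hg h)).subset fun x hx => ?_
    by_contra hcon
    simp only [Set.mem_union, not_or] at hcon
    obtain ⟨c1, c2⟩ := hcon
    have c1' := not_not.1 c1
    have c2' : (x * h⁻¹ ∈ B ↔ x * h⁻¹ * g⁻¹ ∈ B) := not_not.1 c2
    apply hx
    rw [mul_inv_rev, ← mul_assoc, ← c2', c1']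
  inv_mem' := by
    intro g hg
    refine (finite_rt hg g⁻¹).subset fun x hx => ?_
    intro hcon
    apply hx
    simpa using hcon.symm

theorem mem_stab {B : Set Γ} {g : Γ} : g ∈ stab B ↔ {x | ¬(x ∈ B ↔ x * g⁻¹ ∈ B)}.Finite := Iff.rfl

theorem stab_index {B : Set Γ}
    (h : ∀ g : Γ, {x | ¬(x ∈ B ↔ x * g⁻¹ ∈ B)}.Finite ∨ {x | (x ∈ B ↔ x * g⁻¹ ∈ B)}.Finite) :
    (stab B).FiniteIndex := by
  by_cases hall : ∀ g, g ∈ stab B
  · have : stab B = ⊤ := by rw [Subgroup.eq_top_iff']; exact hall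
    rw [this]; infer_instance
  · push Not at hall
    obtain ⟨a, ha⟩ := hall
    have key : ∀ b, b ∉ stab B → b * a ∈ stab B := by
      intro b hb
      have h1 := (h a).resolve_left ha
      have h2 := (h b).resolve_left hb
      refine (h1.union (finite_rt h2 a)).subset fun x hx => ?_
      by_contra hcon
      simp only [Set.mem_union, not_or] at hcon
      obtain ⟨c1, c2⟩ := hcon
      have c1' : ¬ (x ∈ B ↔ x * a⁻¹ ∈ B) := c1
      have c2' : ¬ (x * a⁻¹ ∈ B ↔ x * a⁻¹ * b⁻¹ ∈ B) := c2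
      apply hx
      rw [mul_inv_rev, ← mul_assoc]
      tauto
    have h2 : (stab B).index = 2 := by
      rw [Subgroup.index_eq_two_iff]
      refine ⟨a, fun b => ?_⟩
      by_cases hb : b ∈ stab B
      · refine Or.inr ⟨hb, fun hcon => ha ?_⟩
        have := (stab B).mul_mem ((stab B).inv_mem hb) hcon
        simpa using this
      · exact Or.inl ⟨key b hb, hb⟩
    exact ⟨by rw [h2]; norm_num⟩

open Classical in
/-- integral indicator function -/
noncomputable def zi (B : Set Γ) (x : Γ) : ℤ := if x ∈ B then 1 else 0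

omit [Group Γ] in
theorem zi_of {B : Set Γ} {x : Γ} (h : x ∈ B) : zi B x = 1 := by simp [zi, h]

omit [Group Γ] in
theorem zi_not {B : Set Γ} {x : Γ} (h : x ∉ B) : zi B x = 0 := by simp [zi, h]

theorem zi_supp {B : Set Γ} {g : Γ} (hg : g ∈ stab B) :
    (Function.support fun x => zi B x - zi B (x * g⁻¹)).Finite := by
  refine (mem_stab.1 hg).subset fun x hx hcon => hx ?_
  show zi B x - zi B (x * g⁻¹) = 0
  by_cases h : x ∈ B
  · rw [zi_of h, zi_of (hcon.1 h), sub_self]
  · rw [zi_not h, zi_not fun h' => h (hcon.2 h'), sub_self]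

/-- the index -/
noncomputable def dl (B : Set Γ) (g : Γ) : ℤ := ∑ᶠ x, (zi B x - zi B (x * g⁻¹))

theorem dl_mul {B : Set Γ} {g h : Γ} (hg : g ∈ stab B) (hh : h ∈ stab B) :
    dl B (g * h) = dl B g + dl B h := by
  have h1 : dl B g = ∑ᶠ x, (zi B (x * h⁻¹) - zi B (x * h⁻¹ * g⁻¹)) := by
    rw [dl]
    exact (finsum_comp_equiv (Equiv.mulRight h⁻¹)
      (f := fun x => zi B x - zi B (x * g⁻¹))).symm
  have h2 : (Function.support fun x => zi B (x * h⁻¹) - zi B (x * h⁻¹ * g⁻¹)).Finite :=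
    finite_rt (zi_supp hg) h
  rw [h1, dl, dl, ← finsum_add_distrib h2 (zi_supp hh)]
  refine finsum_congr fun x => ?_
  rw [mul_inv_rev, ← mul_assoc]
  ring

/-- the index as a homomorphism -/
noncomputable def dlH (B : Set Γ) : stab B →* Multiplicative ℤ where
  toFun g := Multiplicative.ofAdd (dl B g)
  map_one' := by
    have : dl B ((1 : stab B) : Γ) = 0 := by
      simp [dl]
    rw [this]; rfl
  map_mul' g h := by
    rw [Subgroup.coe_mul, dl_mul g.2 h.2]; rfl

omit [Group Γ] in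
/-- the sum of a nonnegative function of sum zero vanishes -/
theorem all_zero {f : Γ → ℤ} (hf : (Function.support f).Finite) (h0 : ∀ x, 0 ≤ f x)
    (hs : ∑ᶠ x, f x = 0) (x : Γ) : f x = 0 := by
  rw [finsum_eq_sum f hf, Finset.sum_eq_zero_iff_of_nonneg fun _ _ => h0 _] at hs
  by_contra hx
  exact hx (hs x (by simpa using hx))

/-- **The main combinatorial step.** -/
theorem ker_finite {S : Finset Γ} (hS : GenSet S) {B : Set Γ} (hB : AIs B) (h1 : B.Infinite)
    (h2 : Bᶜ.Infinite) : {g : Γ | g ∈ stab B ∧ dl B g = 0}.Finite := by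
  -- the boundary
  set D : Set Γ := ⋃ s ∈ S, {x | ¬(s⁻¹ * x ∈ B ↔ x ∈ B)} with hDdef
  have hD : D.Finite := S.finite_toSet.biUnion fun s _ => hB s
  have step : ∀ {s x : Γ}, s ∈ S → s * x ∉ D → (x ∈ B ↔ s * x ∈ B) := by
    intro s x hs hx
    by_contra hne
    refine hx (Set.mem_biUnion hs ?_)
    show ¬ (s⁻¹ * (s * x) ∈ B ↔ s * x ∈ B)
    rwa [inv_mul_cancel_left]
  obtain ⟨n, hn⟩ := exists_ball_of_finite hS hD
  set K := ball S (n + 1) with hK
  have hDK : D ⊆ K := hn.trans Set.subset_union_left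
  -- the boundary is not empty: two points of `K` on different sides
  obtain ⟨p, q, hp, hq, hpB, hqB⟩ : ∃ p q, p ∈ K ∧ q ∈ K ∧ p ∈ B ∧ q ∉ B := by
    by_contra hcon
    have hDe : ∀ x, x ∉ D := by
      intro x hx
      obtain ⟨s, hs, hsx⟩ := Set.mem_iUnion₂.1 hx
      have hxK : x ∈ K := hDK hx
      have hyK : s⁻¹ * x ∈ K := Or.inr ⟨s⁻¹, hS.inv s hs, x, hn hx, rfl⟩
      have hsx' : ¬ (s⁻¹ * x ∈ B ↔ x ∈ B) := hsx
      by_cases hxB : x ∈ B
      · exact hcon ⟨x, _, hxK, hyK, hxB, fun h => hsx' ⟨fun _ => hxB, fun _ => h⟩⟩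
      · refine hcon ⟨_, x, hyK, hxK, ?_, hxB⟩
        by_contra h
        exact hsx' ⟨fun h' => absurd h' h, fun h' => absurd h' hxB⟩
    have hconst : ∀ m, ∀ x ∈ ball S m, (x ∈ B ↔ (1 : Γ) ∈ B) := by
      intro m
      induction m with
      | zero =>
        intro x hx
        have : x = 1 := hx
        rw [this]
      | succ m ih =>
        rintro x (hx | ⟨s, hs, y, hy, rfl⟩)
        · exact ih x hx
        · rw [← step hs (hDe _)]; exact ih y hy
    obtain ⟨x, hx⟩ := h1.nonempty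
    obtain ⟨y, hy⟩ := h2.nonempty
    obtain ⟨m, hm⟩ := exists_ball hS x
    obtain ⟨m', hm'⟩ := exists_ball hS y
    exact hy ((hconst m' y hm').2 ((hconst m x hm).1 hx))
  -- far translates of the ball
  have far : ∀ g : Γ, (∀ y ∈ K, y * g ∉ K) → ∀ m ≤ n + 1, ∀ y ∈ ball S m,
      (y * g ∈ B ↔ g ∈ B) := by
    intro g hg m
    induction m with
    | zero =>
      intro _ y hy
      have : y = 1 := hy
      rw [this, one_mul]
    | succ m ih =>
      rintro hm y hyy
      rcases hyy with hy | ⟨s, hs, z, hz, rfl⟩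
      · exact ih (by omega) y hy
      · have hyK : s * z ∈ K := ball_mono S hm (Or.inr ⟨s, hs, z, hz, rfl⟩)
        rw [mul_assoc, ← step hs (fun h => hg _ hyK (by rw [mul_assoc]; exact hDK h))]
        exact ih (by omega) z hz
  refine ((ball_finite S (n + 1)).prod (ball_finite S (n + 1))).image
    (fun p : Γ × Γ => p.1⁻¹ * p.2) |>.subset ?_
  rintro g ⟨hg, hg0⟩
  by_contra hcon
  have hg1 : ∀ y ∈ K, y * g ∉ K := by
    intro y hy hyg
    exact hcon ⟨(y, y * g), ⟨hy, hyg⟩, by simp⟩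
  have hg2 : ∀ y ∈ K, y * g⁻¹ ∉ K := by
    intro y hy hyg
    exact hcon ⟨(y * g⁻¹, y), ⟨hyg, hy⟩, by simp⟩
  have f1 := far g hg1 (n + 1) le_rfl
  have f2 := far g⁻¹ hg2 (n + 1) le_rfl
  have alt : ∀ m, ∀ x ∈ ball S m, (x * g⁻¹ ∈ B ↔ g⁻¹ ∈ B) ∨ (x ∈ B ↔ g ∈ B) := by
    intro m
    induction m with
    | zero =>
      intro x hx
      have : x = 1 := hx
      rw [this, one_mul]; exact Or.inl Iff.rfl
    | succ m ih =>
      rintro x (hx | ⟨s, hs, y, hy, rfl⟩)
      · exact ih x hx
      · by_cases c1 : s * y ∈ K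
        · exact Or.inl (f2 _ c1)
        · by_cases c2 : s * y * g⁻¹ ∈ K
          · right
            have := f1 _ c2
            rwa [inv_mul_cancel_right] at this
          · have e1 := step hs (fun h => c1 (hDK h))
            have e2 : (y * g⁻¹ ∈ B ↔ s * (y * g⁻¹) ∈ B) :=
              step hs (fun h => c2 (by rw [mul_assoc]; exact hDK h))
            rw [mul_assoc, ← e1, ← e2]
            exact ih y hy
  have alt' : ∀ x, (x * g⁻¹ ∈ B ↔ g⁻¹ ∈ B) ∨ (x ∈ B ↔ g ∈ B) := fun x =>
    (exists_ball hS x).elim fun m hm => alt m x hm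
  have hsupp := zi_supp hg
  have hst := mem_stab.1 hg
  by_cases c1 : g ∈ B <;> by_cases c2 : g⁻¹ ∈ B
  · -- the complements are disjoint
    refine h2 (hst.subset fun x hx hcon' => ?_)
    rcases alt' x with h | h
    · exact hx (hcon'.2 (h.2 c2))
    · exact hx (h.2 c1)
  · -- `B g ⊆ B`
    have hle : ∀ x, 0 ≤ zi B x - zi B (x * g⁻¹) := by
      intro x
      by_cases hx : x ∈ B
      · rw [zi_of hx]
        by_cases hx' : x * g⁻¹ ∈ B
        · rw [zi_of hx']; norm_num
        · rw [zi_not hx']; norm_num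
      · rcases alt' x with h | h
        · rw [zi_not hx, zi_not fun h' => c2 (h.1 h')]; norm_num
        · exact absurd (h.2 c1) hx
    have hz := all_zero hsupp hle hg0 p
    rw [zi_of hpB, zi_not fun h => c2 ((f2 p hp).1 h)] at hz
    norm_num at hz
  · -- `B ⊆ B g`
    have hle : ∀ x, 0 ≤ -(zi B x - zi B (x * g⁻¹)) := by
      intro x
      by_cases hx : x ∈ B
      · rcases alt' x with h | h
        · rw [zi_of hx, zi_of (h.2 c2)]; norm_num
        · exact absurd (h.1 hx) c1
      · rw [zi_not hx]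
        by_cases hx' : x * g⁻¹ ∈ B
        · rw [zi_of hx']; norm_num
        · rw [zi_not hx']; norm_num
    have hsupp' : (Function.support fun x => -(zi B x - zi B (x * g⁻¹))).Finite := by
      refine hsupp.subset fun x hx hcon' => hx ?_
      show -(zi B x - zi B (x * g⁻¹)) = 0
      rw [neg_eq_zero]; exact hcon'
    have hz := all_zero hsupp' hle (by
      rw [finsum_neg_distrib]; exact neg_eq_zero.2 hg0) q
    rw [zi_not hqB, zi_of ((f2 q hq).2 c2)] at hz
    norm_num at hz
  · -- the sets are disjoint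
    refine h1 (hst.subset fun x hx hcon' => ?_)
    rcases alt' x with h | h
    · exact c2 (h.1 (hcon'.1 hx))
    · exact c1 (h.1 hx)

/-- **V5, general form.** -/
theorem ends (P : PDG ℚ Γ 0) (hfg : Group.FG Γ) :
    ∃ H : Subgroup Γ, H.FiniteIndex ∧ ∃ f : H →* Multiplicative ℤ, (f.ker : Set H).Finite := by
  obtain ⟨S, hS⟩ := exists_genSet hfg
  obtain ⟨B, hB, h1, h2⟩ := exists_ais P hS
  refine ⟨stab B, stab_index (rt_or P hB h1 h2), dlH B, ?_⟩
  refine ((ker_finite hS hB h1 h2).preimage (f := (Subtype.val : stab B → Γ))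
    Subtype.val_injective.injOn).subset fun g hg => ⟨g.2, ?_⟩
  have : dlH B g = 1 := hg
  exact Multiplicative.ofAdd.injective this

end Vale.Agent.P260.H81
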