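import Mathlib
import Vale.Agent.P260.H81.V5B
import Vale.Agent.P260.H802.VSpec

/-!
# P260 climb, V5
-/

namespace Vale.Agent.P260.H81

open Vale.Agent.P260.H493

/-- **V5.** -/
theorem stmtEnds : H802.StmtEnds := by
  intro N _ P hfg htf
  obtain ⟨H, hH, f, hf⟩ := ends P hfg
  refine ⟨H, hH, ?_⟩
  have hinj : Function.Injective f := by
    rw [← MonoidHom.ker_eq_bot_iff, Subgroup.eq_bot_iff_forall]
    intro x hx
    by_contra hne
    have h1 : (x : N) ≠ 1 := fun h => hne (Subtype.ext h)
    refine htf x h1 ?_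
    have : Finite f.ker := hf
    have h2 : IsOfFinOrder (⟨x, hx⟩ : f.ker) := isOfFinOrder_of_finite _
    exact MonoidHom.isOfFinOrder ((Subgroup.subtype H).comp f.ker.subtype) h2
  have hc : ∀ a b : H, a * b = b * a := fun a b => hinj (by rw [map_mul, map_mul, mul_comm])
  exact Group.isSolvable_of_comm hc

end Vale.Agent.P260.H81
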